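import Vale.Agent.P313.H136.Dbl

/-!
The preconditioner: the product of the matrices `1 + y a` is almost an inverse.
-/

set_option linter.unusedSectionVars false

namespace Vale.Agent.P313.H136

open Finset Matrix

section abstract

variable {V : Type} [Fintype V] [DecidableEq V]

theorem Et_telescope (y : ℕ → Matrix V V ℝ) (r : ℕ) :
    Et y 0 r * (1 - y 0) = 1 - y r +
      ∑ a ∈ range r, Et y (a + 1) (r - 1 - a) * (y (a + 1) - y a * y a) := by
  induction r with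
  | zero =>
    change (1 : Matrix V V ℝ) * (1 - y 0) = _
    simp
  | succ r ih =>
    change (1 + y (0 + r)) * Et y 0 r * (1 - y 0) = _
    rw [zero_add, mul_assoc, ih, sum_range_succ]
    have h1 : ∀ a ∈ range r, Et y (a + 1) (r + 1 - 1 - a) * (y (a + 1) - y a * y a) =
        (1 + y r) * (Et y (a + 1) (r - 1 - a) * (y (a + 1) - y a * y a)) := by
      intro a ha
      have ha' := mem_range.1 ha
      have h2 : r + 1 - 1 - a = (r - 1 - a) + 1 := by omega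
      have h3 : a + 1 + (r - 1 - a) = r := by omega
      rw [h2, ← mul_assoc]
      change (1 + y (a + 1 + (r - 1 - a))) * Et y (a + 1) (r - 1 - a) * _ = _
      rw [h3]
    rw [sum_congr rfl h1, ← mul_sum]
    have h4 : Et y (r + 1) (r + 1 - 1 - r) = 1 := by
      have : r + 1 - 1 - r = 0 := by omega
      rw [this]
      rfl
    rw [h4, one_mul]
    noncomm_ring

variable {h : V → ℝ}

/-- The partial products have small operator norm. -/
theorem Et_op {y P' : ℕ → Matrix V V ℝ} {a n r : ℕ} (har : a + n ≤ r) {Z : Set V}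
    (h0 : ∀ v, 0 ≤ h v) {G ρ : ℝ} (hG : 1 ≤ G) (hρ : 0 ≤ ρ)
    (hy : ∀ i, i < r → ∀ v w, 0 ≤ y i v w)
    (hrow : ∀ i, i < r → ∀ v, ∑ w, y i v w ≤ ρ)
    (hyP : ∀ i, i < r → ∀ v w, y i v w ≤ P' i v w)
    (hz : ∀ i, i < r → ∀ v, ∀ z ∈ Z, y i v z = 0)
    (hF : ∀ z, z ∉ Z → ∑ v, h v * Et P' 0 r v z ≤ G * h z) :
    OpB h (Et y a n) (√((1 + ρ) ^ r * G)) := by
  have h1 : OpB h (Et y a n) (√((1 + ρ) ^ n * G)) := by
    refine OpB.schur' h0 (by positivity) (Et_nonneg fun i hi => hy i (by omega))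
      (Et_row hρ (fun i hi => hy i (by omega)) fun i hi => hrow i (by omega)) ?_
    exact flow_Et_le har h0 hG hy hyP hz hF
  refine h1.mono (Real.sqrt_le_sqrt (mul_le_mul_of_nonneg_right ?_ (by linarith)))
  exact pow_le_pow_right₀ (by linarith) (by omega)

/-- The product is almost an inverse. -/
theorem precond {y P' : ℕ → Matrix V V ℝ} {r : ℕ} {Z : Set V} {NZ : Matrix V V ℝ}
    (h0 : ∀ v, 0 ≤ h v) {G ρ δ δr ρ0 : ℝ} (hG : 1 ≤ G) (hρ : 0 ≤ ρ)
    (hy : ∀ i, i < r → ∀ v w, 0 ≤ y i v w)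
    (hrow : ∀ i, i < r → ∀ v, ∑ w, y i v w ≤ ρ)
    (hyP : ∀ i, i < r → ∀ v w, y i v w ≤ P' i v w)
    (hz : ∀ i, i < r → ∀ v, ∀ z ∈ Z, y i v z = 0)
    (hF : ∀ z, z ∉ Z → ∑ v, h v * Et P' 0 r v z ≤ G * h z)
    (hdbl : ∀ a, a < r → OpB h (y (a + 1) - y a * y a) δ)
    (hr : OpB h (y r) δr) (hN : OpB h (y 0 - NZ) ρ0) :
    OpB h (1 - Et y 0 r * (1 - NZ))
      (δr + r * (√((1 + ρ) ^ r * G) * δ) + √((1 + ρ) ^ r * G) * ρ0) := by
  have h1 : 1 - Et y 0 r * (1 - NZ) = (y r -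
      ∑ a ∈ range r, Et y (a + 1) (r - 1 - a) * (y (a + 1) - y a * y a)) -
      Et y 0 r * (y 0 - NZ) := by
    have h2 := Et_telescope y r
    have h3 : Et y 0 r * (1 - NZ) = Et y 0 r * (1 - y 0) + Et y 0 r * (y 0 - NZ) := by
      noncomm_ring
    rw [h3, h2]
    noncomm_ring
  rw [h1]
  have hs : 0 ≤ √((1 + ρ) ^ r * G) := Real.sqrt_nonneg _
  refine OpB.sub h0 (OpB.sub h0 hr ?_) ?_
  · have h4 := OpB.sum h0 (range r)
      (A := fun a => Et y (a + 1) (r - 1 - a) * (y (a + 1) - y a * y a))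
      (c := fun _ => √((1 + ρ) ^ r * G) * δ) fun a ha => ?_
    · rw [sum_const, card_range, nsmul_eq_mul] at h4
      exact h4
    · have ha' := mem_range.1 ha
      exact OpB.mul hs (Et_op (by omega) h0 hG hρ hy hrow hyP hz hF) (hdbl a ha')
  · exact OpB.mul hs (Et_op (by omega) h0 hG hρ hy hrow hyP hz hF) hN

/-- The squares of perturbed matrices. -/
theorem perturbed_sq (h0 : ∀ v, 0 ≤ h v) {x x' y y' : Matrix V V ℝ} {c δ ρ' : ℝ}
    (hc : 0 ≤ c) (hρ' : 0 ≤ ρ') (hx : OpB h x c) (hxx : OpB h (x' - x * x) δ)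
    (hy : OpB h (y - x) ρ') (hy' : OpB h (y' - x') ρ') :
    OpB h (y' - y * y) (δ + ρ' + (2 * c * ρ' + ρ' ^ 2)) := by
  have h1 : y' - y * y = (x' - x * x) + (y' - x') -
      ((x * (y - x) + (y - x) * x) + (y - x) * (y - x)) := by
    noncomm_ring
  rw [h1]
  refine OpB.sub h0 (OpB.add h0 hxx hy') ?_
  have h2 := OpB.add h0 (OpB.add h0 (OpB.mul hc hx hy) (OpB.mul hρ' hy hx)) (OpB.mul hρ' hy hy)
  exact h2.mono (by nlinarith)

/-- Markov's inequality for weights. -/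
theorem weight_large_le {f : V → ℝ} (hf : ∀ x, 0 ≤ f x) {c : ℝ} (hc : 0 < c) (s : Finset V)
    (hs : ∀ x ∈ s, c * h x ≤ f x) : ∑ x ∈ s, h x ≤ (∑ x, f x) / c := by
  rw [le_div_iff₀ hc, sum_mul]
  refine le_trans (sum_le_sum fun x hx => ?_)
    (sum_le_sum_of_subset_of_nonneg (subset_univ s) fun x _ _ => hf x)
  rw [mul_comm]
  exact hs x hx

/-- The total flow through a product. -/
theorem total_flow_le (h0 : ∀ v, 0 ≤ h v) {x : ℕ → Matrix V V ℝ} {a n : ℕ} {ρ : ℝ}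
    (hρ : 0 ≤ ρ) (hx : ∀ i, i < a + n → ∀ v w, 0 ≤ x i v w)
    (h1 : ∀ i, i < a + n → ∀ v, ∑ w, x i v w ≤ ρ) :
    ∑ z, ∑ v, h v * Et x a n v z ≤ (1 + ρ) ^ n * ∑ v, h v := by
  rw [sum_comm, mul_sum]
  refine sum_le_sum fun v _ => ?_
  rw [← mul_sum, mul_comm]
  exact mul_le_mul_of_nonneg_right (Et_row hρ hx h1 v) (h0 v)

end abstract

namespace Sys

open Classical

variable {V X Ec Sd : Type} {S : Sys V X Ec Sd} [AddCommGroup Ec]
  [Fintype X] [Fintype Ec] [Fintype Sd] [Fintype V] [Nonempty Sd]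
  {μ : ℝ} {Lam : ℕ} {Z : Set V} {a : ℕ}

/-- The kernel of one hop is the given stochastic matrix outside `Z`. -/
theorem P_zero (hpos : ∀ v, 0 < S.hh μ v) {N : Matrix V V ℝ} {G : ℝ}
    (hN : ∀ v x, ((univ.filter fun u => S.st u = v ∧ S.st (S.T0 u) = x).card : ℝ) =
      N v x * ((univ.filter fun u => S.st u = v).card : ℝ))
    (hfib : ∀ y : X, S.st y ∉ Z → ((univ.filter fun u => S.T0 u = y).card : ℝ) ≤ G + 1)
    (hLam : G + 1 < Lam) (v x : V) :
    S.P μ Lam Z 0 v x = if x ∈ Z then 0 else N v x := by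
  by_cases hx : x ∈ Z
  · rw [if_pos hx, P_col v hx]
  · rw [if_neg hx]
    unfold P Jv
    rw [div_eq_iff (hpos v).ne']
    have h1 : ∀ u : X, S.T Lam Z 0 (fun y => if S.stT 0 y = x then 1 else 0) u =
        if S.st (S.T0 u) = x then 1 else 0 := by
      intro u
      unfold T
      by_cases h2 : S.st (S.T0 u) = x
      · have h3 : S.al Lam Z 0 u := by
          refine ⟨?_, ?_⟩
          · change S.st (S.T0 u) ∉ Z
            rw [h2]
            exact hx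
          · have h4 := hfib (S.T0 u) (by rw [h2]; exact hx)
            have h5 : ((S.W 0 (S.U 0 u) : ℕ) : ℝ) < Lam := lt_of_le_of_lt h4 hLam
            exact Nat.cast_lt.1 h5
        rw [if_pos h3]
        rfl
      · rw [if_neg h2]
        split_ifs
        · exact if_neg h2
        · rfl
    change ∑ u ∈ univ.filter (fun u : X => S.st u = v), S.wt μ 0 *
      S.T Lam Z 0 (fun y => if S.stT 0 y = x then 1 else 0) u = _
    simp_rw [h1]
    rw [← mul_sum, ← sum_filter, filter_filter, sum_const, nsmul_eq_mul, mul_one, hN]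
    unfold wt hh
    rw [pow_zero, div_one]
    ring

/-- The flow of a kernel of one level. -/
theorem flow_P_le {r : ℕ} (ha : a < r) (hμ : 0 ≤ μ) (hpos : ∀ v, 0 < S.hh μ v)
    {P' : ℕ → Matrix V V ℝ} {G : ℝ} (hG : 1 ≤ G)
    (hPP : ∀ i, i < r → ∀ v w, S.P μ Lam Z i v w ≤ P' i v w)
    (hF : ∀ z, z ∉ Z → ∑ v, S.hh μ v * Et P' 0 r v z ≤ G * S.hh μ z) (x : V) :
    ∑ v, S.hh μ v * S.P μ Lam Z a v x ≤ G * S.hh μ x := by
  have h0 : ∀ v, 0 ≤ S.hh μ v := fun v => (hpos v).le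
  refine le_trans (sum_le_sum fun v _ => mul_le_mul_of_nonneg_left ?_ (h0 v))
    (flow_Et_le (a := a) (n := 1) (by omega) h0 hG (fun i _ => P_nonneg hμ) hPP
      (fun i _ v z hz => P_col v hz) hF x)
  change _ ≤ ((1 + S.P μ Lam Z (a + 0)) * (1 : Matrix V V ℝ)) v x
  rw [mul_one, Matrix.add_apply, add_zero]
  exact le_add_of_nonneg_left (one_nonneg_entry v x)

/-- The analysis of one stage. -/
theorem stage_op {r : ℕ} (hr : 1 ≤ r) (hμ : 0 ≤ μ) (hpos : ∀ v, 0 < S.hh μ v)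
    (hsym : S.Symm) {lam : ℝ} (hlam : 0 ≤ lam) (hF1 : S.Mixes μ lam r)
    {G ρ η κ ρ' ρ0 : ℝ} (hG : 1 ≤ G) (hρ : 0 ≤ ρ) (hη : 0 ≤ η) (hκ : 0 ≤ κ) (hκ1 : κ ≤ 1)
    (hρ' : 0 ≤ ρ') {P' y : ℕ → Matrix V V ℝ} {Z1 : Set V} (hZ : Z1 ⊆ Z)
    {NZ : Matrix V V ℝ}
    (hPP : ∀ i, i < r → ∀ v w, S.P μ Lam Z i v w ≤ P' i v w)
    (hF : ∀ z, z ∉ Z → ∑ v, S.hh μ v * Et P' 0 r v z ≤ G * S.hh μ z)
    (hl : ∀ a, a < r → ∀ x, x ∉ Z → S.hX μ Lam Z1 a x ≤ η * S.hh μ x)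
    (hy : ∀ i, i < r → ∀ v w, 0 ≤ y i v w)
    (hrow : ∀ i, i < r → ∀ v, ∑ w, y i v w ≤ ρ)
    (hyP : ∀ i, i < r → ∀ v w, y i v w ≤ P' i v w)
    (hz : ∀ i, i < r → ∀ v, ∀ z ∈ Z, y i v z = 0)
    (hyd : ∀ i, i < r → OpB (S.hh μ) (y i - κ ^ 2 ^ i • S.P μ Lam Z i) ρ')
    (hN : OpB (S.hh μ) (y 0 - NZ) ρ0) :
    OpB (S.hh μ) (1 - Et y 0 r * (1 - NZ))
      (κ ^ 2 ^ r * (G + (lam * √(Lam * G) + √η)) +
        r * (√((1 + ρ) ^ r * G) * ((lam * √(Lam * G) + √η) + ρ' + (2 * √G * ρ' + ρ' ^ 2))) +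
        √((1 + ρ) ^ r * G) * ρ0) := by
  have h0 : ∀ v, 0 ≤ S.hh μ v := fun v => (hpos v).le
  set δ0 := lam * √(Lam * G) + √η with hδ0
  have hδ0n : 0 ≤ δ0 := by positivity
  have hflow : ∀ a, a < r → ∀ x, ∑ v, S.hh μ v * S.P μ Lam Z a v x ≤ G * S.hh μ x :=
    fun a ha => flow_P_le ha hμ hpos hG hPP hF
  have hop : ∀ a, a < r → OpB (S.hh μ) (S.P μ Lam Z a) (√G) := fun a ha =>
    OpB.schur h0 (P_nonneg hμ) (P_row hμ hpos) (hflow a ha)
  have hdb : ∀ a, a < r →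
      OpB (S.hh μ) (S.P μ Lam Z (a + 1) - S.P μ Lam Z a * S.P μ Lam Z a) δ0 := fun a ha =>
    doubling hμ hpos hsym hlam ha hF1 (by linarith) (hflow a ha) hZ hη (hl a ha)
  have hκp : ∀ n : ℕ, 0 ≤ κ ^ n ∧ κ ^ n ≤ 1 := fun n => ⟨pow_nonneg hκ n, pow_le_one₀ hκ hκ1⟩
  -- the scaled kernels
  set x : ℕ → Matrix V V ℝ := fun i => κ ^ 2 ^ i • S.P μ Lam Z i with hx
  have hxop : ∀ a, a < r → OpB (S.hh μ) (x a) (√G) := by
    intro a ha
    have h1 := (hop a ha).smul (κ ^ 2 ^ a)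
    rw [abs_of_nonneg (hκp _).1] at h1
    exact h1.mono (mul_le_of_le_one_left (Real.sqrt_nonneg _) (hκp _).2)
  have hxdb : ∀ a, a < r → OpB (S.hh μ) (x (a + 1) - x a * x a) δ0 := by
    intro a ha
    have h1 : x (a + 1) - x a * x a = κ ^ 2 ^ (a + 1) •
        (S.P μ Lam Z (a + 1) - S.P μ Lam Z a * S.P μ Lam Z a) := by
      rw [hx]
      simp only [Matrix.smul_mul, Matrix.mul_smul, smul_smul, smul_sub]
      rw [← pow_add, pow_succ 2 a, mul_two]
    rw [h1]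
    have h2 := (hdb a ha).smul (κ ^ 2 ^ (a + 1))
    rw [abs_of_nonneg (hκp _).1] at h2
    exact h2.mono (mul_le_of_le_one_left hδ0n (hκp _).2)
  -- replace the last matrix by the exact one
  set y' : ℕ → Matrix V V ℝ := fun i => if i < r then y i else x i with hy'
  have hyy : ∀ i, i < r → y' i = y i := fun i hi => by rw [hy']; exact if_pos hi
  have hEt : ∀ a n, a + n ≤ r → Et y' a n = Et y a n := by
    intro a n
    induction n with
    | zero => exact fun _ => rfl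
    | succ n ih =>
      intro h1
      change (1 + y' (a + n)) * Et y' a n = (1 + y (a + n)) * Et y a n
      rw [ih (by omega), hyy _ (by omega)]
  have hyd' : ∀ i, i ≤ r → OpB (S.hh μ) (y' i - x i) ρ' := by
    intro i hi
    rcases hi.lt_or_eq with h1 | h1
    · rw [hyy i h1]
      exact hyd i h1
    · have h2 : y' i = x i := by rw [hy']; exact if_neg (by omega)
      rw [h2, sub_self]
      exact OpB.zero.mono hρ'
  have h1 := precond (h := S.hh μ) (y := y') (P' := P') (r := r) (Z := Z) (NZ := NZ) h0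
    (δ := δ0 + ρ' + (2 * √G * ρ' + ρ' ^ 2)) (δr := κ ^ 2 ^ r * (G + δ0)) (ρ0 := ρ0) hG hρ
    (fun i hi => by rw [hyy i hi]; exact hy i hi)
    (fun i hi => by rw [hyy i hi]; exact hrow i hi)
    (fun i hi => by rw [hyy i hi]; exact hyP i hi)
    (fun i hi => by rw [hyy i hi]; exact hz i hi) hF
    (fun a ha => perturbed_sq h0 (Real.sqrt_nonneg G) hρ' (hxop a ha) (hxdb a ha)
      (hyd' a (by omega)) (hyd' (a + 1) (by omega))) ?_ ?_
  · rw [hEt 0 r (by omega)] at h1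
    exact h1
  · -- the last matrix
    have h2 : y' r = x r := by rw [hy']; exact if_neg (by omega)
    rw [h2]
    have h3 : S.P μ Lam Z r = S.P μ Lam Z (r - 1) * S.P μ Lam Z (r - 1) +
        (S.P μ Lam Z (r - 1 + 1) - S.P μ Lam Z (r - 1) * S.P μ Lam Z (r - 1)) := by
      have : r - 1 + 1 = r := by omega
      rw [this]
      abel
    have h4 : OpB (S.hh μ) (S.P μ Lam Z r) (G + δ0) := by
      rw [h3]
      have h5 := (hop (r - 1) (by omega)).mul (Real.sqrt_nonneg G) (hop (r - 1) (by omega))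
      rw [Real.mul_self_sqrt (by linarith)] at h5
      exact OpB.add h0 h5 (hdb (r - 1) (by omega))
    have h5 := h4.smul (κ ^ 2 ^ r)
    rw [abs_of_nonneg (hκp _).1] at h5
    exact h5
  · rw [hyy 0 (by omega)]
    exact hN

end Sys

end Vale.Agent.P313.H136
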