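import Vale.Agent.P313.H136.TreeBr
import Vale.Agent.P313.H644.WkDef
import Vale.Agent.P313.BP.Inst

/-!
From the abstract bridge to the numbers which the tours compute.
-/

set_option linter.unusedSectionVars false

namespace Vale.Agent.P313.H136

open Finset Classical Vale.Agent.P313.BP Vale.Agent.P313.H644

variable (p : Par2) [hq0 : NeZero p.q] (d : SD)

/-- The token of a content (`u0` if the content is not valid). -/
noncomputable def Dc (u0 : (lay p d).X0) : ∀ a, Cn → TokS p d a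
  | 0 => fun y =>
    if h : y.x < p.n ∧ y.z < (lay p d).q ^ (lay p d).c y.x then
      (⟨⟨y.x, h.1⟩, ⟨y.z, h.2⟩⟩ : (lay p d).X0)
    else u0
  | a + 1 => fun y => (Dc u0 a y, (lay p d).tlab a y.tp)

/-- The labels of a content. -/
noncomputable def labc (b : ℕ) (y : Cn) : (lay p d).Ec × (lay p d).Sd := (lay p d).tlab b y.tp

variable {p d}

theorem vds_z (hc : ∀ x < p.n, d.c x ≤ p.cmax) {y : Cn} (hy : VdS p d y) :
    y.x < p.n ∧ y.z < (lay p d).q ^ (lay p d).c y.x := by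
  refine ⟨hy.1, ?_⟩
  change y.z < p.q ^ min (d.c y.x) p.cmax
  rw [min_eq_left (hc _ hy.1)]
  exact hy.2.1

theorem Dc_eq (u0 : (lay p d).X0) {y : Cn}
    (h : y.x < p.n ∧ y.z < (lay p d).q ^ (lay p d).c y.x) (a : ℕ) :
    Dc p d u0 a y = dec p d a ⟨y.x, h.1⟩ ⟨y.z, h.2⟩ y.tp := by
  induction a with
  | zero => exact dif_pos h
  | succ a ih =>
    change (Dc p d u0 a y, (lay p d).tlab a y.tp) = _
    rw [ih]
    rfl

theorem st_Dc (u0 : (lay p d).X0) {y : Cn}
    (h : y.x < p.n ∧ y.z < (lay p d).q ^ (lay p d).c y.x) (a : ℕ) :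
    (sysc p d).stT a (Dc p d u0 a y) = ⟨y.x, h.1⟩ := by
  rw [Dc_eq u0 h]
  exact (H205.Lay.stT_sys _ _ _ _).trans (H205.Lay.st_dec _ _ _ _)

theorem W_Dc (u0 : (lay p d).X0) {y : Cn}
    (h : y.x < p.n ∧ y.z < (lay p d).q ^ (lay p d).c y.x) (a : ℕ) :
    (theTSem p).W d a y.x y.z y.tp = (sysc p d).W a (Dc p d u0 a y) := by
  rw [Dc_eq u0 h]
  exact dif_pos h

theorem C_Dc (u0 : (lay p d).X0) {y : Cn}
    (h : y.x < p.n ∧ y.z < (lay p d).q ^ (lay p d).c y.x) (Z : ℕ → Prop) (a v : ℕ) :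
    (theTSem p).C d Z a v y.x y.z y.tp =
      (univ.filter fun u : TokS p d a => (sysc p d).U a u = Dc p d u0 a y ∧
        (((sysc p d).stT a u : ℕ) = v ∨ p.n ≤ v) ∧
          (sysc p d).ok {w : Fin p.n | Z w} a u).card := by
  rw [Dc_eq u0 h]
  exact dif_pos h

theorem Lo_Dc (u0 : (lay p d).X0) {y : Cn}
    (h : y.x < p.n ∧ y.z < (lay p d).q ^ (lay p d).c y.x) (Z : ℕ → Prop) (a : ℕ) :
    (theTSem p).Lo d Z a y.x y.z y.tp =
      if p.Lam ≤ (sysc p d).W (a + 1) (Dc p d u0 (a + 1) y) then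
        (univ.filter fun u : TokS p d (a + 1) =>
          (sysc p d).U (a + 1) u = Dc p d u0 (a + 1) y ∧
          (sysc p d).al p.Lam {w : Fin p.n | Z w} a u.1 ∧
          (sysc p d).al p.Lam {w : Fin p.n | Z w} a
            ((sysc p d).R a ((sysc p d).U a u.1, u.2)).1).card
      else 0 := by
  rw [Dc_eq u0 h]
  exact dif_pos h

/-- Capping the summands does not change whether a sum reaches the cap. -/
theorem cap_sum {ι : Type*} (s : Finset ι) (f : ι → ℕ) (L : ℕ) (w : ℕ) :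
    L ≤ w + ∑ i ∈ s, (if f i < L then f i else L) ↔ L ≤ w + ∑ i ∈ s, f i := by
  constructor
  · intro h
    refine h.trans (Nat.add_le_add_left (sum_le_sum fun i _ => ?_) _)
    split_ifs <;> omega
  · intro h
    by_cases h1 : ∀ i ∈ s, f i < L
    · rw [sum_congr rfl fun i hi => if_pos (h1 i hi)]
      exact h
    · push Not at h1
      obtain ⟨i, hi, h2⟩ := h1
      have h3 : (if f i < L then f i else L) ≤ ∑ i ∈ s, (if f i < L then f i else L) :=
        single_le_sum (f := fun i => if f i < L then f i else L) (fun _ _ => Nat.zero_le _) hi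
      rw [if_neg (by omega)] at h3
      omega

theorem bridge_of (hc : ∀ x < p.n, d.c x ≤ p.cmax)
    (h : ∀ u0 : (lay p d).X0, Br (sysc p d) (wk p d).mv (VdS p d) (Dc p d u0) (labc p d)
      (wk p d).unmix v2 p.r) : Bridge p (theTSem p) d := by
  have hZ : ∀ (u0 : (lay p d).X0) (Z : ℕ → Prop), ∀ y, VdS p d y →
      (Zx Z 0 y ↔ (sysc p d).st (Dc p d u0 0 y) ∈ {w : Fin p.n | Z w}) := by
    intro u0 Z y hy
    have h1 := st_Dc u0 (vds_z hc hy) 0
    change (sysc p d).st (Dc p d u0 0 y) = _ at h1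
    rw [h1]
    exact Iff.rfl
  constructor
  · intro a ha y hy
    have hv := vds_z hc hy
    rw [W_Dc ⟨⟨y.x, hv.1⟩, ⟨y.z, hv.2⟩⟩ hv]
    exact (h _).W_eq a ha y hy
  · intro Z a ha v y hy
    have hv := vds_z hc hy
    rw [C_Dc ⟨⟨y.x, hv.1⟩, ⟨y.z, hv.2⟩⟩ hv]
    refine Eq.trans ((h ⟨⟨y.x, hv.1⟩, ⟨y.z, hv.2⟩⟩).cnt_eq (Z := Zx Z) (fun _ _ => Iff.rfl)
      (hZ _ Z) ha (fun u => ((sysc p d).stT a u : ℕ) = v ∨ p.n ≤ v) (g := gst p.n v) ?_ hy) ?_
    · intro u hu
      rw [st_Dc _ (vds_z hc hu)]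
      unfold gst
      by_cases h1 : u.x = v
      · rw [if_pos (Or.inr h1), if_pos (Or.inl h1)]
      · by_cases h2 : p.n ≤ v
        · rw [if_pos (Or.inl h2), if_pos (Or.inr h2)]
        · rw [if_neg (fun h' => h'.elim h2 h1), if_neg (fun h' => h'.elim h1 h2)]
    · congr!
  · intro Z a ha y hy
    have hv := vds_z hc hy
    set u0 : (lay p d).X0 := ⟨⟨y.x, hv.1⟩, ⟨y.z, hv.2⟩⟩ with hu0
    have hb := h u0
    rw [Lo_Dc u0 hv, ← hb.loss_eq (Z := Zx Z) (Zs := {w : Fin p.n | Z w}) (fun _ _ => Iff.rfl)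
      (hZ _ Z) ha (Lam := p.Lam)
      (g := fun u => (theTSem p).cnt p.Lam d Z a p.n u.x u.z u.tp) ?_ hy, hb.shift_W_eq ha.le hy]
    · have h1 : (p.Lam ≤ (sysc p d).W a (Dc p d u0 a y) + ((wk p d).mv.shift (2 ^ a)).sl
          (fun u => if (theTSem p).W d a u.x u.z u.tp < p.Lam then (theTSem p).W d a u.x u.z u.tp
            else p.Lam) (2 ^ a) y) ↔ p.Lam ≤ (sysc p d).W (a + 1) (Dc p d u0 (a + 1) y) := by
        rw [hb.shift_sl_eq ha (fun w => if (sysc p d).W a w.1 < p.Lam then (sysc p d).W a w.1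
          else p.Lam) (fun u hu => by rw [W_Dc u0 (vds_z hc hu)]; rfl) hy]
        exact cap_sum _ _ _ _
      by_cases h2 : (sysc p d).W a (Dc p d u0 a y) < p.Lam
      · rw [if_pos h2, if_pos h2]
        by_cases h3 : p.Lam ≤ (sysc p d).W (a + 1) (Dc p d u0 (a + 1) y)
        · rw [if_pos h3, if_pos (h1.2 h3)]
        · rw [if_neg h3, if_neg (fun h' => h3 (h1.1 h'))]
      · rw [if_neg h2, if_neg h2, ite_self]
    · intro u hu
      have hvu := vds_z hc hu
      simp only [TSem.cnt]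
      rw [W_Dc u0 hvu, C_Dc u0 hvu]
      congr 2
      ext u'
      simp only [mem_filter, mem_univ, true_and, le_refl, or_true]

end Vale.Agent.P313.H136
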