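import Vale.Agent.P313.H136.Num
import Vale.Agent.P313.H974.Spec

/-!
The analysis of one stage in the form needed by the composition of the stages.
-/

set_option linter.unusedSectionVars false

namespace Vale.Agent.P313.H136

open Finset Matrix Vale.Agent.P313.BP Vale.Agent.P313.H974

section

variable {V : Type} [Fintype V]

theorem isBd_of_opB {h : V → ℝ} (h0 : ∀ v, 0 ≤ h v) {E : Matrix V V ℝ} {ρ : ℝ}
    (hE : OpB h E ρ) : IsBd h E ρ := by
  intro f
  have h1 := nsq_le_of_nrm_le h0 (hE f)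
  rw [mul_pow, nrm_sq h0] at h1
  exact h1

theorem gprod_eq_Et [DecidableEq V] (x : ℕ → Matrix V V ℝ) (m : ℕ) :
    gprod (fun a => 1 + x a) m = Et x 0 m := by
  induction m with
  | zero => rfl
  | succ m ih =>
    change (1 + x m) * gprod (fun a => 1 + x a) m = (1 + x (0 + m)) * Et x 0 m
    rw [ih, zero_add]

end

theorem Lr_eq (p : Par) (d : SD) (Z : ℕ → Prop) :
    Lr p d Z = 1 - kap p • Sys.NZm (Nm p d) {x : Fin p.n | Z x} := by
  unfold Lr
  congr 1
  ext v x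
  rw [mul_diagonal]
  change Nm p d v x * (1 - bet p Z x) = kap p * Sys.NZm (Nm p d) {x : Fin p.n | Z x} v x
  unfold bet kap Sys.NZm
  by_cases h : Z x
  · have h' : x ∈ {x : Fin p.n | Z x} := h
    rw [if_pos h, if_pos h']
    ring
  · have h' : x ∉ {x : Fin p.n | Z x} := h
    rw [if_neg h, if_neg h']
    ring

theorem kap_nonneg (p : Par) : 0 ≤ kap p := by
  unfold kap
  have : (1 / 2 : ℝ) ^ p.rk ≤ 1 := pow_le_one₀ (by norm_num) (by norm_num)
  linarith

theorem kap_le_one (p : Par) : kap p ≤ 1 := by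
  unfold kap
  have : (0 : ℝ) ≤ (1 / 2 : ℝ) ^ p.rk := by positivity
  linarith

section

variable {p : Par} {Sm : Sem} {d : SD} {X Ec Sd : Type} [AddCommGroup Ec] [Fintype X]
  [Fintype Ec] [Fintype Sd] [Nonempty Sd] {S : Sys (Fin p.n) X Ec Sd} {μ : ℝ}

/-- The system `S` describes the kernels and the loss of the stage datum `d`. -/
structure Match (p : Par) (Sm : Sem) (d : SD) (S : Sys (Fin p.n) X Ec Sd) (μ : ℝ) : Prop where
  good : S.Good μ p.q p.r (Nm p d)
  hw_eq : ∀ v, S.hh μ v = hw p d v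
  P_eq : ∀ (Z : ℕ → Prop) (a : ℕ) (v x : Fin p.n),
    Sm.P d Z a v x = S.P μ (p.q ^ 34) {x : Fin p.n | Z x} a v x
  loss_eq : ∀ (Z : ℕ → Prop) (x : Fin p.n),
    Sm.loss d Z x = (∑ a ∈ range p.r, S.hX μ (p.q ^ 34) {x : Fin p.n | Z x} a x) / S.hh μ x

theorem Match.big (h : Match p Sm d S μ) {Z : ℕ → Prop} (hb : H974.Big p Sm d Z) :
    S.Big μ p.q p.r (Nm p d) {x : Fin p.n | Z x} := by
  intro x hx
  obtain ⟨h1, h2⟩ := hb x hx
  refine ⟨?_, ?_⟩
  · simp_rw [h.hw_eq]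
    exact h1
  · simp_rw [h.hw_eq]
    refine le_trans (le_of_eq ?_) h2
    unfold Fr
    refine sum_congr rfl fun v _ => ?_
    congr 1
    have h3 : ∀ a, Pm p Sm d (fun _ => False) a = S.P μ (p.q ^ 34) ∅ a := by
      intro a
      ext v x
      change Sm.P d (fun _ => False) a v x = _
      rw [h.P_eq]
      congr 2
    simp_rw [h3]
    rw [gprod_eq_Et]
    have hd : (fun a b : Fin p.n => Classical.propDecidable (a = b)) = instDecidableEqFin p.n :=
      Subsingleton.elim _ _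
    rw [hd]

theorem Match.lossmass (h : Match p Sm d S μ) {Z : ℕ → Prop} (hb : H974.Big p Sm d Z) :
    2 * (p.q : ℝ) ^ 10 * ∑ x : Fin p.n, hw p d x * Sm.loss d Z x ≤ ∑ x : Fin p.n, hw p d x := by
  have h1 := h.good.lossmass (h.big hb)
  unfold Sys.tot at h1
  simp_rw [h.hw_eq] at h1
  refine le_trans (le_of_eq ?_) h1
  congr 1
  refine sum_congr rfl fun x _ => ?_
  rw [h.loss_eq, h.hw_eq]
  have h2 := h.good.pos x
  rw [h.hw_eq] at h2
  exact mul_div_cancel₀ _ h2.ne'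

theorem Match.pre (h : Match p Sm d S μ) (hκ : kap p ^ 2 ^ p.r * (p.q : ℝ) ^ 6 ≤ 1)
    {Z Z' : ℕ → Prop} (hb : H974.Big p Sm d Z) (hZ : ∀ x, Z x → Z' x)
    (hl : ∀ x : Fin p.n, ¬ Z' x → Sm.loss d Z x ≤ 2 / (p.q : ℝ) ^ 7) :
    IsBd (hw p d) (1 - gprod (fun a => 1 + kap p ^ 2 ^ a • Pm p Sm d Z' a) p.r * Lr p d Z')
      (2 / p.q) := by
  have hh0 : ∀ v, 0 ≤ hw p d v := fun v => by
    rw [← h.hw_eq]
    exact (h.good.pos v).le
  refine isBd_of_opB hh0 ?_
  have h1 := h.good.pre (h.big hb) (Z' := {x : Fin p.n | Z' x}) (fun x hx => hZ x hx)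
    (kap_nonneg p) (kap_le_one p) hκ (fun x hx => by
      rw [← h.loss_eq]
      exact hl x hx)
  have h2 : S.hh μ = hw p d := funext h.hw_eq
  rw [h2] at h1
  rw [gprod_eq_Et, Lr_eq]
  have h3 : (fun a => kap p ^ 2 ^ a • Pm p Sm d Z' a) =
      fun a => kap p ^ 2 ^ a • S.P μ (p.q ^ 34) {x : Fin p.n | Z' x} a := by
    funext a
    congr 1
    ext v x
    exact h.P_eq Z' a v x
  rw [h3]
  have hd : (fun a b : Fin p.n => Classical.propDecidable (a = b)) = instDecidableEqFin p.n :=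
    Subsingleton.elim _ _
  rw [hd] at h1
  exact h1

theorem Match.P_nonneg (h : Match p Sm d S μ) (Z : ℕ → Prop) (a : ℕ) (v x : Fin p.n) :
    0 ≤ Sm.P d Z a v x := by
  rw [h.P_eq]
  exact Sys.P_nonneg h.good.μ_nn v x

theorem Match.P_row (h : Match p Sm d S μ) (Z : ℕ → Prop) (a : ℕ) (v : Fin p.n) :
    ∑ x : Fin p.n, Sm.P d Z a v x ≤ 1 := by
  simp_rw [h.P_eq]
  exact Sys.P_row h.good.μ_nn h.good.pos v

end

end Vale.Agent.P313.H136
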