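import Vale.Agent.P313.H136.Loss

/-!
Doubling: the kernel of level `a + 1` is close to the square of the kernel of level `a`.
-/

set_option linter.unusedSectionVars false

namespace Vale.Agent.P313.H136

open Finset Matrix

namespace Sys

open Classical

variable {V X Ec Sd : Type} {S : Sys V X Ec Sd} [AddCommGroup Ec]
  [Fintype X] [Fintype Ec] [Fintype Sd]
  {μ : ℝ} {Lam : ℕ} {Z : Set V} {a : ℕ}

variable (S) in
/-- The walks from the state `v` which are alive after both halves, seen from their end. -/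
noncomputable def tw (Lam : ℕ) (Z : Set V) (a : ℕ) (v : V) : Tok X (Ec × Sd) (a + 1) → ℝ :=
  S.two Lam Z a (S.Ts Lam Z a fun u => if S.stT a u = v then 1 else 0)

variable (S) in
/-- The kernel of the lost walks. -/
noncomputable def Xk (μ : ℝ) (Lam : ℕ) (Z : Set V) (a : ℕ) : Matrix V V ℝ :=
  fun v x => (∑ y ∈ univ.filter (fun y => S.stT (a + 1) y = x ∧ Lam ≤ S.W (a + 1) y),
    S.wt μ (a + 1) * S.tw Lam Z a v y) / S.hh μ v

variable (S) in
/-- The kernel of the walks which are alive after both halves. -/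
noncomputable def Qk (μ : ℝ) (Lam : ℕ) (Z : Set V) (a : ℕ) : Matrix V V ℝ :=
  fun v x => (∑ y ∈ univ.filter (fun y => S.stT (a + 1) y = x),
    S.wt μ (a + 1) * S.tw Lam Z a v y) / S.hh μ v

theorem tw_nonneg (v : V) (y : Tok X (Ec × Sd) (a + 1)) : 0 ≤ S.tw Lam Z a v y :=
  two_nonneg (Ts_nonneg fun u => by split_ifs <;> norm_num) y

theorem Xk_nonneg (hμ : 0 ≤ μ) (v x : V) : 0 ≤ S.Xk μ Lam Z a v x := by
  refine div_nonneg (sum_nonneg fun y _ => mul_nonneg (wt_nonneg hμ) (tw_nonneg v y)) ?_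
  unfold hh
  positivity

theorem Qk_nonneg (hμ : 0 ≤ μ) (v x : V) : 0 ≤ S.Qk μ Lam Z a v x := by
  refine div_nonneg (sum_nonneg fun y _ => mul_nonneg (wt_nonneg hμ) (tw_nonneg v y)) ?_
  unfold hh
  positivity

theorem P_eq (v x : V) : S.P μ Lam Z a v x =
    (∑ y ∈ univ.filter (fun y => S.stT a y = x),
      S.wt μ a * S.Ts Lam Z a (fun u => if S.stT a u = v then 1 else 0) y) / S.hh μ v := by
  unfold P Jv
  congr 1
  rw [← mul_sum, ← mul_sum]
  congr 1
  have h1 := adj (S := S) (Lam := Lam) (Z := Z) (a := a)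
    (fun u => if S.stT a u = v then 1 else 0) (fun y => if S.stT a y = x then 1 else 0)
  rw [sum_filter, sum_filter]
  simp only [mul_ite, mul_one, mul_zero, ite_mul, one_mul, zero_mul] at h1
  exact h1.symm

/-- The kernel of level `a + 1` is the kernel of the walks which are alive after both halves
minus the kernel of the lost walks. -/
theorem P_add_Xk (v x : V) :
    S.P μ Lam Z (a + 1) v x + S.Xk μ Lam Z a v x = S.Qk μ Lam Z a v x := by
  rw [P_eq]
  unfold Xk Qk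
  rw [← add_div]
  congr 1
  rw [← filter_filter, sum_filter, sum_filter (p := fun y => Lam ≤ S.W (a + 1) y), sum_filter,
    sum_filter, ← sum_add_distrib]
  refine sum_congr rfl fun y _ => ?_
  by_cases hx : S.stT (a + 1) y = x
  · rw [if_pos hx, if_pos hx, if_pos hx]
    have h1 : S.Ts Lam Z (a + 1) (fun u => if S.stT (a + 1) u = v then 1 else 0) y =
        if S.W (a + 1) y < Lam then S.tw Lam Z a v y else 0 :=
      Ts_succ (fun u => if S.stT a u = v then 1 else 0) y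
    rw [h1]
    by_cases hW : S.W (a + 1) y < Lam
    · rw [if_pos hW, if_neg (not_le.2 hW), add_zero]
    · rw [if_neg hW, if_pos (not_lt.1 hW), mul_zero, zero_add]
  · rw [if_neg hx, if_neg hx, if_neg hx, add_zero]

/-- Pairing with the two phases. -/
theorem two_pair [Nonempty Sd] (m g : Tok X (Ec × Sd) a → ℝ) :
    ∑ y : Tok X (Ec × Sd) (a + 1), S.wt μ (a + 1) * (S.two Lam Z a m y * g y.1) =
      ∑ u, S.wt μ a * (S.Av a m u * S.T Lam Z a g u) := by
  have hE : (Fintype.card Ec : ℝ) ≠ 0 := Nat.cast_ne_zero.2 Fintype.card_ne_zero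
  rw [← mul_sum, ← mul_sum, ← wt_succ (S := S) (μ := μ) (a := a), mul_assoc, sum_tok_succ']
  congr 1
  have h1 : ∀ (y0 : Tok X (Ec × Sd) a), ∑ e : Ec, ∑ s : Sd,
      S.two Lam Z a m (y0, (e, s)) * g y0 =
      ∑ u ∈ univ.filter (fun u => S.U a u = y0 ∧ S.al Lam Z a u),
        (Fintype.card Sd * Fintype.card Ec * (S.Av a m u * g y0)) := by
    intro y0
    unfold two
    simp_rw [sum_mul]
    rw [sum_congr rfl fun e _ => sum_comm]
    rw [sum_comm]
    refine sum_congr rfl fun u _ => ?_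
    rw [sum_comm]
    have h2 : ∀ s : Sd, ∑ e : Ec, m (S.Ri a (u, (e, s))).1 * g y0 =
        Fintype.card Ec * (S.Av a m u * g y0) := by
      intro s
      unfold Av Ri
      rw [← sum_mul, ← Equiv.sum_comp (Equiv.addRight (S.hs a s u))]
      simp only [Equiv.coe_addRight, add_sub_cancel_right]
      field_simp
    have h3 : ∀ s : Sd, ∑ e : Ec, m (S.Ri a (u, (((y0, (e, s)) : Tok X (Ec × Sd) (a + 1)).2))).1 *
        g y0 = Fintype.card Ec * (S.Av a m u * g y0) := h2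
    rw [sum_congr rfl fun s _ => h3 s, sum_const, card_univ, nsmul_eq_mul, mul_assoc]
  rw [sum_congr rfl fun y0 _ => h1 y0]
  have h4 : ∑ u, S.Av a m u * S.T Lam Z a g u =
      ∑ y0, ∑ u ∈ univ.filter (fun u => S.U a u = y0 ∧ S.al Lam Z a u), S.Av a m u * g y0 := by
    have h5 : ∀ u, S.Av a m u * S.T Lam Z a g u =
        if S.al Lam Z a u then S.Av a m u * g (S.U a u) else 0 := by
      intro u
      unfold T
      split_ifs
      · rfl
      · rw [mul_zero]
    simp_rw [h5]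
    rw [← sum_filter, ← sum_fiberwise (univ.filter fun u => S.al Lam Z a u) (S.U a)]
    refine sum_congr rfl fun y _ => ?_
    rw [filter_filter]
    refine sum_congr ?_ fun u hu => ?_
    · ext u
      simp only [mem_filter, mem_univ, true_and]
      exact and_comm
    · rw [(mem_filter.1 hu).2.1]
  rw [h4, mul_sum]
  exact sum_congr rfl fun y0 _ => by rw [mul_sum]

/-- The family of shifts is symmetric. -/
def Symm (S : Sys V X Ec Sd) : Prop :=
  ∀ a, ∃ σ : Equiv.Perm Ec, ∀ e, S.sh a (σ e) = (S.sh a e).symm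

theorem Av_adj (hS : S.Symm) (m g : Tok X (Ec × Sd) a → ℝ) :
    ∑ u, S.Av a m u * g u = ∑ u, m u * S.Av a g u := by
  obtain ⟨σ, hσ⟩ := hS a
  unfold Av
  simp_rw [div_mul_eq_mul_div, mul_div_assoc', ← sum_div]
  congr 1
  simp_rw [sum_mul, mul_sum]
  have hL : ∑ u, ∑ e, m ((S.sh a e).symm u) * g u =
      ∑ e, ∑ u, m ((S.sh a e).symm u) * g u := sum_comm
  have hR : ∑ u, ∑ e, m u * g ((S.sh a e).symm u) =
      ∑ e, ∑ u, m u * g ((S.sh a e).symm u) := sum_comm
  rw [hL, hR, ← Equiv.sum_comp σ (fun e => ∑ u, m u * g ((S.sh a e).symm u))]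
  refine sum_congr rfl fun e _ => ?_
  rw [hσ, Equiv.symm_symm, ← Equiv.sum_comp (S.sh a e)
    (fun u => m ((S.sh a e).symm u) * g u)]
  exact sum_congr rfl fun u _ => by rw [Equiv.symm_apply_apply]

variable [Fintype V] [Nonempty Sd]

theorem Xk_row (hμ : 0 ≤ μ) (hpos : ∀ v, 0 < S.hh μ v) (v : V) :
    ∑ x, S.Xk μ Lam Z a v x ≤ 1 := by
  have h1 : ∑ x, S.Xk μ Lam Z a v x ≤ ∑ x, S.Qk μ Lam Z a v x := by
    refine sum_le_sum fun x _ => ?_
    rw [← P_add_Xk]
    exact le_add_of_nonneg_left (P_nonneg hμ v x)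
  refine le_trans h1 ?_
  have h2 : ∑ x, S.Qk μ Lam Z a v x =
      (∑ y, S.wt μ (a + 1) * (S.tw Lam Z a v y * 1)) / S.hh μ v := by
    unfold Qk
    rw [← sum_div]
    congr 1
    simp_rw [mul_one]
    exact (sum_by_state (S := S) (a := a + 1) _).symm
  have h3 : ∑ y, S.wt μ (a + 1) * (S.tw Lam Z a v y * 1) =
      ∑ u, S.wt μ a * (S.Av a (S.Ts Lam Z a fun u => if S.stT a u = v then 1 else 0) u *
        S.T Lam Z a (fun _ => 1) u) :=
    two_pair (S.Ts Lam Z a fun u => if S.stT a u = v then 1 else 0) fun _ => 1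
  rw [h2, h3, div_le_one (hpos v)]
  set m := S.Ts Lam Z a fun u => if S.stT a u = v then (1 : ℝ) else 0 with hm
  have hm0 : ∀ u, 0 ≤ m u := Ts_nonneg fun u => by split_ifs <;> norm_num
  have hA0 : ∀ u, 0 ≤ S.Av a m u := fun u =>
    div_nonneg (sum_nonneg fun e _ => hm0 _) (Nat.cast_nonneg _)
  have hE : (0 : ℝ) < Fintype.card Ec := Nat.cast_pos.2 Fintype.card_pos
  have hT1 : ∀ u, S.T Lam Z a (fun _ => (1 : ℝ)) u ≤ 1 := by
    intro u
    unfold T
    split_ifs
    · exact le_refl _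
    · exact zero_le_one
  have h4 : ∑ u, S.Av a m u = ∑ u, m u := by
    unfold Av
    rw [← sum_div, sum_comm]
    have : ∀ e, ∑ u, m ((S.sh a e).symm u) = ∑ u, m u := fun e =>
      Equiv.sum_comp (S.sh a e).symm m
    simp_rw [this]
    rw [sum_const, card_univ, nsmul_eq_mul]
    field_simp
  have h5 : ∑ u, m u = ∑ u, (if S.stT a u = v then (1 : ℝ) else 0) *
      S.T Lam Z a (fun _ => 1) u := by
    rw [← adj]
    exact sum_congr rfl fun y _ => (mul_one _).symm
  calc ∑ u, S.wt μ a * (S.Av a m u * S.T Lam Z a (fun _ => 1) u) ≤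
        ∑ u, S.wt μ a * S.Av a m u := by
          refine sum_le_sum fun u _ => mul_le_mul_of_nonneg_left ?_ (wt_nonneg hμ)
          exact mul_le_of_le_one_right (hA0 u) (hT1 u)
    _ = S.wt μ a * ∑ u, (if S.stT a u = v then (1 : ℝ) else 0) *
          S.T Lam Z a (fun _ => 1) u := by rw [← mul_sum, h4, h5]
    _ ≤ S.wt μ a * ∑ u, (if S.stT a u = v then (1 : ℝ) else 0) := by
        refine mul_le_mul_of_nonneg_left (sum_le_sum fun u _ => ?_) (wt_nonneg hμ)
        exact mul_le_of_le_one_right (by split_ifs <;> norm_num) (hT1 u)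
    _ = S.hh μ v := by
        rw [← card_stT_mul (a := a) v]
        congr 1
        simp

/-- The flow of the lost walks. -/
theorem sum_Xk (hpos : ∀ v, 0 < S.hh μ v) (x : V) :
    ∑ v, S.hh μ v * S.Xk μ Lam Z a v x = S.hX μ Lam Z a x := by
  have h1 : ∀ v, S.hh μ v * S.Xk μ Lam Z a v x =
      ∑ y ∈ univ.filter (fun y => S.stT (a + 1) y = x ∧ Lam ≤ S.W (a + 1) y),
        S.wt μ (a + 1) * S.tw Lam Z a v y := by
    intro v
    unfold Xk
    exact mul_div_cancel₀ _ (hpos v).ne'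
  simp_rw [h1]
  rw [sum_comm]
  unfold hX
  refine sum_congr rfl fun y _ => ?_
  rw [← mul_sum]
  congr 1
  unfold tw two Ts
  rw [sum_comm]
  refine sum_congr rfl fun u' _ => ?_
  rw [sum_comm]
  refine sum_congr rfl fun u _ => ?_
  simp

/-- The lost walks avoid `Z`. -/
theorem Xk_col (v : V) {x : V} (hx : x ∈ Z) : S.Xk μ Lam Z a v x = 0 := by
  unfold Xk
  rw [div_eq_zero_iff]
  left
  refine sum_eq_zero fun y hy => ?_
  have h1 : S.tw Lam Z a v y = 0 := by
    unfold tw two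
    refine sum_eq_zero fun u' hu' => ?_
    exfalso
    obtain ⟨h2, h3⟩ := (mem_filter.1 hu').2
    have h4 : S.stT a y.1 = x := (mem_filter.1 hy).2.1
    have h5 := ok_end h3.1
    rw [h2, h4] at h5
    exact h5 hx
  rw [h1, mul_zero]

theorem hX_mono (hμ : 0 ≤ μ) {Z' : Set V} (hZ : Z ⊆ Z') (x : V) :
    S.hX μ Lam Z' a x ≤ S.hX μ Lam Z a x := by
  unfold hX
  refine sum_le_sum fun y _ => mul_le_mul_of_nonneg_left ?_ (wt_nonneg hμ)
  exact two_mono hZ (Ts_nonneg fun _ => zero_le_one)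
    (Ts_mono hZ (fun _ => zero_le_one) fun _ => le_refl _) y

/-- The operator norm of the kernel of the lost walks. -/
theorem Xk_op (hμ : 0 ≤ μ) (hpos : ∀ v, 0 < S.hh μ v) {Z1 : Set V} (hZ : Z1 ⊆ Z) {η : ℝ}
    (hη : 0 ≤ η) (hl : ∀ x, x ∉ Z → S.hX μ Lam Z1 a x ≤ η * S.hh μ x) :
    OpB (S.hh μ) (S.Xk μ Lam Z a) (√η) := by
  refine OpB.schur (fun v => (hpos v).le) (Xk_nonneg hμ) (Xk_row hμ hpos) fun x => ?_
  by_cases hx : x ∈ Z
  · have h1 : ∀ v, S.hh μ v * S.Xk μ Lam Z a v x = 0 := fun v => by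
      rw [Xk_col v hx, mul_zero]
    simp_rw [h1]
    rw [sum_const_zero]
    exact mul_nonneg hη (hpos x).le
  · rw [sum_Xk hpos]
    exact le_trans (hX_mono hμ hZ x) (hl x hx)

/-- The two phases and the square of the kernel. -/
theorem Qk_sub_sq (hsym : S.Symm) (f : V → ℝ) :
    (S.Qk μ Lam Z a - S.P μ Lam Z a * S.P μ Lam Z a) *ᵥ f =
      S.Jv μ a (S.T Lam Z a fun u =>
        S.Av a (S.T Lam Z a fun y => f (S.stT a y)) u -
          S.Jv μ a (S.T Lam Z a fun y => f (S.stT a y)) (S.stT a u)) := by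
  set g := S.T Lam Z a fun y => f (S.stT a y) with hg
  have h1 : S.Qk μ Lam Z a *ᵥ f = S.Jv μ a (S.T Lam Z a (S.Av a g)) := by
    funext v
    have h2 : (S.Qk μ Lam Z a *ᵥ f) v = ∑ x, S.Qk μ Lam Z a v x * f x := rfl
    have h3 : ∑ x, S.Qk μ Lam Z a v x * f x =
        (∑ y : Tok X (Ec × Sd) (a + 1), S.wt μ (a + 1) *
          (S.tw Lam Z a v y * f (S.stT a y.1))) / S.hh μ v := by
      unfold Qk
      simp_rw [div_mul_eq_mul_div]
      rw [← sum_div]
      congr 1
      rw [sum_by_state (S := S) (a := a + 1)]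
      refine sum_congr rfl fun x _ => ?_
      rw [sum_mul]
      refine sum_congr rfl fun y hy => ?_
      have h4 : S.stT a y.1 = x := (mem_filter.1 hy).2
      rw [h4]
      ring
    have h5 : ∑ y : Tok X (Ec × Sd) (a + 1), S.wt μ (a + 1) *
          (S.tw Lam Z a v y * f (S.stT a y.1)) =
        ∑ u, S.wt μ a * (S.Av a (S.Ts Lam Z a fun u => if S.stT a u = v then 1 else 0) u *
          g u) :=
      two_pair (S.Ts Lam Z a fun u => if S.stT a u = v then 1 else 0) fun y => f (S.stT a y)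
    rw [h2, h3, h5, ← mul_sum, Av_adj hsym, adj]
    unfold Jv
    congr 1
    rw [← mul_sum, sum_filter]
    congr 1
    exact sum_congr rfl fun u _ => by split_ifs <;> simp
  have h2 : (S.P μ Lam Z a * S.P μ Lam Z a) *ᵥ f =
      S.Jv μ a (S.T Lam Z a fun u => S.Jv μ a g (S.stT a u)) := by
    rw [← mulVec_mulVec, P_mulVec f, P_mulVec]
  rw [sub_mulVec, h1, h2]
  funext v
  rw [Pi.sub_apply]
  unfold Jv
  rw [← sub_div, ← sum_sub_distrib]
  congr 1
  refine sum_congr rfl fun u _ => ?_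
  rw [← mul_sub]
  congr 1
  unfold T
  split_ifs
  · rfl
  · ring

/-- Doubling. -/
theorem doubling (hμ : 0 ≤ μ) (hpos : ∀ v, 0 < S.hh μ v) (hsym : S.Symm) {lam : ℝ}
    (hlam : 0 ≤ lam) {r : ℕ} (ha : a < r) (hF1 : S.Mixes μ lam r) {G : ℝ} (hG : 0 ≤ G)
    (hflow : ∀ x, ∑ v, S.hh μ v * S.P μ Lam Z a v x ≤ G * S.hh μ x)
    {Z1 : Set V} (hZ : Z1 ⊆ Z) {η : ℝ}
    (hη : 0 ≤ η) (hl : ∀ x, x ∉ Z → S.hX μ Lam Z1 a x ≤ η * S.hh μ x) :
    OpB (S.hh μ) (S.P μ Lam Z (a + 1) - S.P μ Lam Z a * S.P μ Lam Z a)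
      (lam * √(Lam * G) + √η) := by
  have h0 : ∀ v, 0 ≤ S.hh μ v := fun v => (hpos v).le
  have h1 : S.P μ Lam Z (a + 1) - S.P μ Lam Z a * S.P μ Lam Z a =
      (S.Qk μ Lam Z a - S.P μ Lam Z a * S.P μ Lam Z a) - S.Xk μ Lam Z a := by
    ext v x
    have := P_add_Xk (S := S) (μ := μ) (Lam := Lam) (Z := Z) (a := a) v x
    simp only [Matrix.sub_apply]
    linarith
  rw [h1]
  refine OpB.sub h0 ?_ (Xk_op hμ hpos hZ hη hl)
  intro f
  refine nrm_le_nrm_of_nsq h0 (mul_nonneg hlam (Real.sqrt_nonneg _)) ?_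
  rw [Qk_sub_sq hsym, mul_pow, Real.sq_sqrt (by positivity)]
  refine le_trans (nsq_Jv_le hpos hμ _) ?_
  refine le_trans (nsqT_T_le hμ card_al_le _) ?_
  have h2 := hF1 a ha (S.T Lam Z a fun y => f (S.stT a y))
  have h3 := nsqT_T_lift_le hpos hflow f
  calc (Lam : ℝ) * S.nsqT μ a (fun u => S.Av a (S.T Lam Z a fun y => f (S.stT a y)) u -
        S.Jv μ a (S.T Lam Z a fun y => f (S.stT a y)) (S.stT a u)) ≤
        Lam * (lam ^ 2 * S.nsqT μ a (S.T Lam Z a fun y => f (S.stT a y))) :=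
          mul_le_mul_of_nonneg_left h2 (Nat.cast_nonneg _)
    _ ≤ Lam * (lam ^ 2 * (G * nsq (S.hh μ) f)) :=
        mul_le_mul_of_nonneg_left (mul_le_mul_of_nonneg_left h3 (sq_nonneg _))
          (Nat.cast_nonneg _)
    _ = _ := by ring

end Sys

end Vale.Agent.P313.H136
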