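import Vale.Agent.P313.H136.Pre

/-!
The analysis of one stage with numerical values of the parameters.
-/

set_option linter.unusedSectionVars false

namespace Vale.Agent.P313.H136

open Finset Matrix

namespace Sys

open Classical

variable {V X Ec Sd : Type} {S : Sys V X Ec Sd} [AddCommGroup Ec]
  [Fintype X] [Fintype Ec] [Fintype Sd] [Fintype V] [Nonempty Sd]
  {μ : ℝ}

/-- What the analysis of a stage needs about the tokens, for the matrix `N`. -/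
structure Good (S : Sys V X Ec Sd) (μ : ℝ) (q r : ℕ) (N : Matrix V V ℝ) : Prop where
  q_big : 16 ^ (r + 1) ≤ q
  r_pos : 1 ≤ r
  μ_nn : 0 ≤ μ
  pos : ∀ v, 0 < S.hh μ v
  symm : S.Symm
  mixes : S.Mixes μ (1 / (q : ℝ) ^ 23) r
  hashes : S.Hashes r
  fib : ∀ y : X, ((univ.filter fun u => S.T0 u = y).card : ℝ) ≤
    (∑ v, S.hh μ v * N v (S.st y)) / S.hh μ (S.st y) + 1
  cnt : ∀ v x, ((univ.filter fun u => S.st u = v ∧ S.st (S.T0 u) = x).card : ℝ) =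
    N v x * ((univ.filter fun u => S.st u = v).card : ℝ)

/-- Outside `Z` the flows of `N` and of the product of the kernels are small. -/
def Big (S : Sys V X Ec Sd) (μ : ℝ) (q r : ℕ) (N : Matrix V V ℝ) (Z : Set V) : Prop :=
  ∀ x, x ∉ Z → ∑ v, S.hh μ v * N v x ≤ (q : ℝ) ^ 4 * S.hh μ x ∧
    ∑ v, S.hh μ v * Et (fun a => S.P μ (q ^ 34) ∅ a) 0 r v x ≤ (q : ℝ) ^ 4 * S.hh μ x

variable {q r : ℕ} {N : Matrix V V ℝ} {Z : Set V}

theorem Big.mono (h : Big S μ q r N Z) {Z' : Set V} (hZ : Z ⊆ Z') : Big S μ q r N Z' :=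
  fun x hx => h x fun h1 => hx (hZ h1)

theorem Good.q1 (h : Good S μ q r N) : (1 : ℝ) ≤ q := by
  have h1 : 1 ≤ q := le_trans Nat.one_le_two_pow (le_trans
    (Nat.pow_le_pow_left (by norm_num : 2 ≤ 16) (r + 1)) h.q_big)
  exact_mod_cast h1

theorem Good.G1 (h : Good S μ q r N) : (1 : ℝ) ≤ (q : ℝ) ^ 4 := one_le_pow₀ h.q1

theorem Good.fib' (h : Good S μ q r N) (hb : Big S μ q r N Z) (y : X) (hy : S.st y ∉ Z) :
    ((univ.filter fun u => S.T0 u = y).card : ℝ) ≤ (q : ℝ) ^ 4 + 1 := by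
  refine le_trans (h.fib y) (add_le_add ?_ (le_refl _))
  rw [div_le_iff₀ (h.pos _)]
  exact (hb _ hy).1

theorem Good.dom (h : Good S μ q r N) (Z : Set V) :
    ∀ i, i < r → ∀ v w, S.P μ (q ^ 34) Z i v w ≤ S.P μ (q ^ 34) ∅ i v w :=
  fun _ _ v w => P_mono h.μ_nn (Set.empty_subset Z) v w

theorem Good.flow (h : Good S μ q r N) (hb : Big S μ q r N Z) {a : ℕ} (ha : a ≤ r) (z : V) :
    ∑ v, S.hh μ v * Et (fun i => S.P μ (q ^ 34) Z i) 0 a v z ≤ (q : ℝ) ^ 4 * S.hh μ z :=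
  flow_Et_le (by omega) (fun v => (h.pos v).le) h.G1 (fun i _ => P_nonneg h.μ_nn) (h.dom Z)
    (fun i _ v z hz => P_col v hz) (fun z hz => (hb z hz).2) z

/-- Numerical facts about `q` and `r`. -/
theorem num_aux (h : 16 ^ (r + 1) ≤ q) :
    (16 : ℝ) ≤ q ∧ (r : ℝ) ^ 2 * 2 ^ r * 9 ≤ q ∧ (r : ℝ) ^ 2 * 12 ^ r * 12 ≤ q ^ 2 := by
  have h1 : (16 : ℝ) ^ (r + 1) ≤ q := by exact_mod_cast h
  have h2 : (1 : ℝ) ≤ 16 ^ r := one_le_pow₀ (by norm_num)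
  have h3 : (r : ℝ) ≤ 2 ^ r := by
    have := Nat.lt_two_pow_self (n := r)
    exact_mod_cast this.le
  have h4 : (r : ℝ) ^ 2 ≤ 4 ^ r := by
    calc (r : ℝ) ^ 2 ≤ (2 ^ r) ^ 2 := pow_le_pow_left₀ (Nat.cast_nonneg _) h3 2
      _ = 4 ^ r := by
        rw [← pow_mul, mul_comm, pow_mul]
        norm_num
  have h5 : (16 : ℝ) ^ (r + 1) = 16 ^ r * 16 := pow_succ _ _
  refine ⟨by linarith, ?_, ?_⟩
  · calc (r : ℝ) ^ 2 * 2 ^ r * 9 ≤ 4 ^ r * 2 ^ r * 9 := by gcongr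
      _ = 8 ^ r * 9 := by
        rw [← mul_pow]
        norm_num
      _ ≤ 16 ^ r * 16 := by
        have : (8 : ℝ) ^ r ≤ 16 ^ r := pow_le_pow_left₀ (by norm_num) (by norm_num) r
        have h8 : (0 : ℝ) ≤ 8 ^ r := by positivity
        nlinarith
      _ ≤ q := by linarith
  · calc (r : ℝ) ^ 2 * 12 ^ r * 12 ≤ 4 ^ r * 12 ^ r * 12 := by gcongr
      _ = 48 ^ r * 12 := by
        rw [← mul_pow]
        norm_num
      _ ≤ 256 ^ r * 256 := by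
        have : (48 : ℝ) ^ r ≤ 256 ^ r := pow_le_pow_left₀ (by norm_num) (by norm_num) r
        have h8 : (0 : ℝ) ≤ 48 ^ r := by positivity
        nlinarith
      _ = (16 ^ (r + 1)) ^ 2 := by
        rw [← pow_mul, mul_comm (r + 1) 2, pow_mul]
        norm_num
        rw [pow_succ]
      _ ≤ (q : ℝ) ^ 2 := pow_le_pow_left₀ (by positivity) h1 2

/-- The total loss of a stage. -/
theorem Good.lossmass (h : Good S μ q r N) (hb : Big S μ q r N Z) :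
    2 * (q : ℝ) ^ 10 * ∑ x, ∑ a ∈ range r, S.hX μ (q ^ 34) Z a x ≤ S.tot μ := by
  obtain ⟨hq16, -, hq2⟩ := num_aux h.q_big
  have hq0 : (0 : ℝ) < q := by linarith
  have htot : 0 ≤ S.tot μ := sum_nonneg fun v _ => (h.pos v).le
  have hQ0 : 0 < q ^ 34 := pow_pos (by exact_mod_cast hq0) 34
  have h1 : ∀ a ∈ range r, ∑ x, S.hX μ (q ^ 34) Z a x ≤
      √(12 ^ r * 2 / (q : ℝ) ^ 22) * S.tot μ := by
    intro a ha
    have ha' := mem_range.1 ha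
    refine le_trans (sum_hX_le h.μ_nn h.pos h.mixes h.hashes h.G1 hQ0 (h.fib' hb) a ha'
      (h.flow hb (by omega))) ?_
    refine mul_le_mul_of_nonneg_right (Real.sqrt_le_sqrt ?_) htot
    have hc : (1 + 4 * (1 / (q : ℝ) ^ 23) ^ 2 * ((q ^ 34 : ℕ) : ℝ)) * 5 ≤ 6 := by
      have h2 : 4 * (1 / (q : ℝ) ^ 23) ^ 2 * ((q ^ 34 : ℕ) : ℝ) = 4 / (q : ℝ) ^ 12 := by
        push_cast
        field_simp
      rw [h2]
      have h3 : 4 / (q : ℝ) ^ 12 ≤ 1 / 5 := by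
        rw [div_le_div_iff₀ (by positivity) (by norm_num)]
        have h4 : (q : ℝ) ^ 2 ≤ (q : ℝ) ^ 12 := pow_le_pow_right₀ (by linarith) (by norm_num)
        nlinarith
      linarith
    have hc0 : 0 ≤ (1 + 4 * (1 / (q : ℝ) ^ 23) ^ 2 * ((q ^ 34 : ℕ) : ℝ)) * 5 := by positivity
    have h5 : ((1 + 4 * (1 / (q : ℝ) ^ 23) ^ 2 * ((q ^ 34 : ℕ) : ℝ)) * 5) ^ (a + 1) ≤ 6 ^ r :=
      le_trans (pow_le_pow_left₀ hc0 hc _) (pow_le_pow_right₀ (by norm_num) (by omega))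
    have h6 : (2 : ℝ) ^ (a + 1) ≤ 2 ^ r := pow_le_pow_right₀ (by norm_num) (by omega)
    have h7 : (q : ℝ) ^ 4 + 1 ≤ 2 * q ^ 4 := by linarith [h.G1]
    calc ((1 + 4 * (1 / (q : ℝ) ^ 23) ^ 2 * ((q ^ 34 : ℕ) : ℝ)) * 5) ^ (a + 1) *
          (((q : ℝ) ^ 4 + 1) * ((q : ℝ) ^ 4) ^ 2) * (2 ^ (a + 1) / ((q ^ 34 : ℕ) : ℝ))
        ≤ 6 ^ r * ((2 * q ^ 4) * ((q : ℝ) ^ 4) ^ 2) * (2 ^ r / ((q ^ 34 : ℕ) : ℝ)) := by
          gcongr
      _ = 12 ^ r * 2 / (q : ℝ) ^ 22 := by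
          have : (12 : ℝ) ^ r = 6 ^ r * 2 ^ r := by
            rw [← mul_pow]
            norm_num
          rw [this]
          push_cast
          field_simp
  have h2 : ∑ x, ∑ a ∈ range r, S.hX μ (q ^ 34) Z a x ≤
      r * (√(12 ^ r * 2 / (q : ℝ) ^ 22) * S.tot μ) := by
    rw [sum_comm]
    refine le_trans (sum_le_sum h1) ?_
    rw [sum_const, card_range, nsmul_eq_mul]
  refine le_trans (mul_le_mul_of_nonneg_left h2 (by positivity)) ?_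
  have h3 : 2 * (q : ℝ) ^ 10 * (r * (√(12 ^ r * 2 / (q : ℝ) ^ 22) * S.tot μ)) =
      (2 * (q : ℝ) ^ 10 * r * √(12 ^ r * 2 / (q : ℝ) ^ 22)) * S.tot μ := by ring
  rw [h3]
  refine mul_le_of_le_one_left htot ?_
  have h4 : 2 * (q : ℝ) ^ 10 * r * √(12 ^ r * 2 / (q : ℝ) ^ 22) =
      √((2 * (q : ℝ) ^ 10 * r) ^ 2 * (12 ^ r * 2 / (q : ℝ) ^ 22)) := by
    rw [Real.sqrt_mul (sq_nonneg _), Real.sqrt_sq (by positivity)]
  rw [h4, Real.sqrt_le_one]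
  have h5 : (2 * (q : ℝ) ^ 10 * r) ^ 2 * (12 ^ r * 2 / (q : ℝ) ^ 22) =
      (r ^ 2 * 12 ^ r * 8) / q ^ 2 := by
    field_simp
    ring
  rw [h5, div_le_one (by positivity)]
  have h6 : 0 ≤ (r : ℝ) ^ 2 * 12 ^ r := by positivity
  linarith

theorem Et_congr {x y : ℕ → Matrix V V ℝ} {a n : ℕ} (h : ∀ i, i < a + n → x i = y i) :
    Et x a n = Et y a n := by
  induction n with
  | zero => rfl
  | succ n ih =>
    change (1 + x (a + n)) * Et x a n = (1 + y (a + n)) * Et y a n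
    rw [ih fun i hi => h i (by omega), h _ (by omega)]

open Classical in
/-- The matrix `N` without the columns of `Z`. -/
noncomputable def NZm (N : Matrix V V ℝ) (Z : Set V) : Matrix V V ℝ :=
  fun v x => if x ∈ Z then 0 else N v x

/-- The preconditioner of a stage. -/
theorem Good.pre (h : Good S μ q r N) (hb : Big S μ q r N Z) {Z' : Set V} (hZ : Z ⊆ Z')
    {κ : ℝ} (hκ0 : 0 ≤ κ) (hκ1 : κ ≤ 1) (hκ : κ ^ 2 ^ r * (q : ℝ) ^ 6 ≤ 1)
    (hl : ∀ x, x ∉ Z' →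
      (∑ a ∈ range r, S.hX μ (q ^ 34) Z a x) / S.hh μ x ≤ 2 / (q : ℝ) ^ 7) :
    OpB (S.hh μ) (1 - Et (fun a => κ ^ 2 ^ a • S.P μ (q ^ 34) Z' a) 0 r *
      (1 - κ • NZm N Z')) (2 / q) := by
  obtain ⟨hq16, hq1, -⟩ := num_aux h.q_big
  have hq0 : (0 : ℝ) < q := by linarith
  have hb' := hb.mono hZ
  have hκp : ∀ n : ℕ, 0 ≤ κ ^ n ∧ κ ^ n ≤ 1 := fun n =>
    ⟨pow_nonneg hκ0 n, pow_le_one₀ hκ0 hκ1⟩
  have hX0 : ∀ a x, 0 ≤ S.hX μ (q ^ 34) Z a x := fun a x =>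
    sum_nonneg fun y _ => mul_nonneg (wt_nonneg h.μ_nn)
      (two_nonneg (Ts_nonneg fun _ => zero_le_one) y)
  have hP0 : S.P μ (q ^ 34) Z' 0 = NZm N Z' := by
    ext v x
    rw [P_zero h.pos h.cnt (h.fib' hb') ?_]
    · rfl
    · push_cast
      have h1 : (q : ℝ) ^ 5 ≤ (q : ℝ) ^ 34 := pow_le_pow_right₀ h.q1 (by norm_num)
      have h2 : (q : ℝ) ^ 5 = q ^ 4 * q := pow_succ _ _
      have h3 := h.G1
      nlinarith
  have h1 := stage_op (S := S) (Lam := q ^ 34) (Z := Z') h.r_pos h.μ_nn h.pos h.symm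
    (lam := 1 / (q : ℝ) ^ 23) (by positivity) h.mixes (G := (q : ℝ) ^ 4) (ρ := 1)
    (η := 2 / (q : ℝ) ^ 7) (κ := κ) (ρ' := 0) (ρ0 := 0) h.G1 zero_le_one (by positivity)
    hκ0 hκ1 (le_refl _) (P' := fun i => S.P μ (q ^ 34) ∅ i)
    (y := fun a => κ ^ 2 ^ a • S.P μ (q ^ 34) Z' a) hZ (NZ := κ • NZm N Z')
    (h.dom Z') (fun z hz => (hb' z hz).2) ?_ ?_ ?_ ?_ ?_ ?_ ?_
  · refine h1.mono ?_
    have hδ : 1 / (q : ℝ) ^ 23 * √(((q ^ 34 : ℕ) : ℝ) * (q : ℝ) ^ 4) + √(2 / (q : ℝ) ^ 7) ≤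
        √(6 / (q : ℝ) ^ 7) := by
      have h2 : √(((q ^ 34 : ℕ) : ℝ) * (q : ℝ) ^ 4) = (q : ℝ) ^ 19 := by
        rw [Real.sqrt_eq_iff_mul_self_eq (by positivity) (by positivity)]
        push_cast
        ring
      rw [h2]
      have h3 : 1 / (q : ℝ) ^ 23 * q ^ 19 = 1 / q ^ 4 := by
        field_simp
      rw [h3]
      have h4 : 1 / (q : ℝ) ^ 4 = √(1 / q ^ 8) := by
        rw [eq_comm, Real.sqrt_eq_iff_mul_self_eq (by positivity) (by positivity)]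
        field_simp
      rw [h4]
      have h5 : √(1 / (q : ℝ) ^ 8) ≤ √(1 / 16 / q ^ 7) := by
        refine Real.sqrt_le_sqrt ?_
        rw [div_div, div_le_div_iff₀ (by positivity) (by positivity)]
        have : (q : ℝ) ^ 8 = q ^ 7 * q := pow_succ _ _
        rw [this]
        have h6 : (0 : ℝ) < q ^ 7 := by positivity
        nlinarith
      refine le_trans (add_le_add h5 (le_refl _)) ?_
      refine Real.le_sqrt_of_sq_le ?_
      have h7 : (0 : ℝ) ≤ 1 / 16 / q ^ 7 := by positivity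
      have h8 : (0 : ℝ) ≤ 2 / q ^ 7 := by positivity
      have h9 := Real.sq_sqrt h7
      have h10 := Real.sq_sqrt h8
      have h11 : (√(1 / 16 / (q : ℝ) ^ 7) + √(2 / q ^ 7)) ^ 2 ≤
          2 * (1 / 16 / q ^ 7) + 2 * (2 / q ^ 7) := by
        nlinarith [sq_nonneg (√(1 / 16 / (q : ℝ) ^ 7) - √(2 / q ^ 7))]
      refine le_trans h11 (le_of_eq_of_le ?_ (div_le_div_of_nonneg_right
        (by norm_num : (2 * (1 / 16) + 2 * 2 : ℝ) ≤ 6) (by positivity)))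
      ring
    set δ := 1 / (q : ℝ) ^ 23 * √(((q ^ 34 : ℕ) : ℝ) * (q : ℝ) ^ 4) + √(2 / (q : ℝ) ^ 7)
      with hδd
    have hδ0 : 0 ≤ δ := by positivity
    have hδ1 : δ ≤ 1 := by
      refine le_trans hδ ?_
      rw [Real.sqrt_le_one, div_le_one (by positivity)]
      have : (q : ℝ) ^ 1 ≤ q ^ 7 := pow_le_pow_right₀ h.q1 (by norm_num)
      rw [pow_one] at this
      linarith
    have hA : κ ^ 2 ^ r * ((q : ℝ) ^ 4 + δ) ≤ 1 / q := by
      rw [le_div_iff₀ hq0]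
      have h2 : ((q : ℝ) ^ 4 + δ) * q ≤ q ^ 6 := by
        have h3 : (q : ℝ) ^ 6 = q ^ 4 * q * q := by ring
        have h4 := h.G1
        have h5 : (q : ℝ) ≤ q ^ 4 * q := by nlinarith
        rw [h3]
        nlinarith
      calc κ ^ 2 ^ r * ((q : ℝ) ^ 4 + δ) * q = κ ^ 2 ^ r * (((q : ℝ) ^ 4 + δ) * q) := by ring
        _ ≤ κ ^ 2 ^ r * q ^ 6 := mul_le_mul_of_nonneg_left h2 (hκp _).1
        _ ≤ 1 := hκ
    have hB : (r : ℝ) * (√((1 + 1) ^ r * (q : ℝ) ^ 4) * δ) ≤ 1 / q := by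
      refine le_trans (mul_le_mul_of_nonneg_left (mul_le_mul_of_nonneg_left hδ
        (Real.sqrt_nonneg _)) (Nat.cast_nonneg r)) ?_
      rw [← Real.sqrt_mul (by positivity)]
      have h2 : (r : ℝ) * √((1 + 1) ^ r * (q : ℝ) ^ 4 * (6 / q ^ 7)) =
          √((r : ℝ) ^ 2 * ((1 + 1) ^ r * (q : ℝ) ^ 4 * (6 / q ^ 7))) := by
        rw [Real.sqrt_mul (sq_nonneg _), Real.sqrt_sq (Nat.cast_nonneg r)]
      rw [h2]
      refine Real.sqrt_le_iff.2 ⟨by positivity, ?_⟩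
      have h3 : (r : ℝ) ^ 2 * ((1 + 1) ^ r * (q : ℝ) ^ 4 * (6 / q ^ 7)) =
          (r ^ 2 * 2 ^ r * 6) / q ^ 3 := by
        norm_num
        field_simp
      rw [h3, div_pow, one_pow, div_le_div_iff₀ (by positivity) (by positivity)]
      have h4 : (q : ℝ) ^ 3 = q * q ^ 2 := by ring
      rw [one_mul, h4]
      refine mul_le_mul_of_nonneg_right ?_ (by positivity)
      have h5 : 0 ≤ (r : ℝ) ^ 2 * 2 ^ r := by positivity
      linarith
    have hfin : (2 : ℝ) / q = 1 / q + 1 / q := by ring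
    rw [hfin]
    simp only [mul_zero, add_zero, zero_pow (two_ne_zero)]
    exact add_le_add hA hB
  · intro a ha x hx
    have h2 := hl x hx
    rw [div_le_iff₀ (h.pos x)] at h2
    exact le_trans (single_le_sum (f := fun a => S.hX μ (q ^ 34) Z a x)
      (fun a _ => hX0 a x) (mem_range.2 ha)) h2
  · intro i _ v w
    exact mul_nonneg (hκp _).1 (P_nonneg h.μ_nn v w)
  · intro i _ v
    have h2 : ∑ w, (κ ^ 2 ^ i • S.P μ (q ^ 34) Z' i) v w =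
        κ ^ 2 ^ i * ∑ w, S.P μ (q ^ 34) Z' i v w := by
      rw [mul_sum]
      rfl
    rw [h2]
    exact mul_le_one₀ (hκp _).2 (sum_nonneg fun w _ => P_nonneg h.μ_nn v w)
      (P_row h.μ_nn h.pos v)
  · intro i hi v w
    refine le_trans ?_ (h.dom Z' i hi v w)
    exact mul_le_of_le_one_left (P_nonneg h.μ_nn v w) (hκp _).2
  · intro i _ v z hz
    change κ ^ 2 ^ i * S.P μ (q ^ 34) Z' i v z = 0
    rw [P_col v hz, mul_zero]
  · intro i _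
    rw [sub_self]
    exact OpB.zero
  · rw [pow_zero, pow_one, hP0, sub_self]
    exact OpB.zero

end Sys

end Vale.Agent.P313.H136
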