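import Vale.Agent.P313.H205.Sys
import Vale.Agent.P313.H899.T0
import Vale.Agent.P313.H136.Num

/-!
The concrete levels with the concrete hop satisfy the hypotheses of the analysis of a stage.
-/

namespace Vale.Agent.P313.H136

open Finset H205 H205.Lay

/-- Numerical conditions on the parameters. -/
structure NumOK (q r t cm nd n : ℕ) : Prop where
  r1 : 1 ≤ r
  q16 : 16 ^ (r + 1) ≤ q
  mix : (cm + nd + 10 * t * r) ^ t * q ^ 23 ≤ q ^ t
  hash : 4 * t * (cm + nd + 10 * t * r) ^ 2 ≤ q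
  n_le : n ≤ q ^ nd

variable {Y : Lay} [hq : Fact Y.q.Prime]

theorem good_sys (hc : ∀ w, Y.c w ≤ Y.cm) {T0 : Y.X0 → Y.X0} {F : ℕ → ℕ → ℕ} {r : ℕ}
    (hn : NumOK Y.q r Y.t Y.cm Y.nd Y.n)
    (hF : ∀ v < Y.n, H899.rowS Y.n F v = Y.q ^ Y.c v)
    (hT1 : ∀ u : Y.X0, ((T0 u).1 : ℕ) = H899.upx Y.n F u.1 u.2)
    (hT2 : ∀ u : Y.X0, ((T0 u).2 : ℕ) = H899.upz Y.n F (fun v => Y.q ^ Y.c v) u.1 u.2)
    {μ : ℝ} (hμ : 0 < μ) {N : Matrix (Fin Y.n) (Fin Y.n) ℝ}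
    (hN : ∀ v x, N v x = (F v x : ℝ) / (Y.q : ℝ) ^ Y.c v) :
    (sys hc T0).Good μ Y.q r N := by
  have hq0 : (0 : ℝ) < Y.q := by exact_mod_cast hq.out.pos
  have hH : ∀ v < Y.n, 0 < Y.q ^ Y.c v := fun v _ => pow_pos hq.out.pos _
  have hT : T0 = H899.T0 (n := Y.n) (F := F) (H := fun v => Y.q ^ Y.c v) hF hH := by
    funext u
    exact H899.tok_ext (n := Y.n) (H := fun v => Y.q ^ Y.c v) (hT1 u) (hT2 u)
  have hsum : ∀ x : Fin Y.n, ∑ v, (sys hc T0).hh μ v * N v x = μ * (H899.colS Y.n F x : ℝ) := by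
    intro x
    unfold H899.colS H899.pre
    rw [Nat.cast_sum, sum_range (n := Y.n) (f := fun v => ((F v x : ℕ) : ℝ)), mul_sum]
    refine sum_congr rfl fun v _ => ?_
    rw [hh_sys, hN]
    field_simp
  constructor
  · exact hn.q16
  · exact hn.r1
  · exact hμ.le
  · exact hh_pos hc T0 hμ
  · exact symm_sys hc T0
  · refine mixes_sys hc T0 hμ ?_
    rw [div_pow, div_le_div_iff₀ (pow_pos hq0 _) (pow_pos hq0 _), one_mul]
    have h := hn.mix
    exact_mod_cast h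
  · exact hashes_sys hc hn.n_le T0 hn.hash
  · intro y
    have h1 := H899.card_fibre_le (n := Y.n) (F := F) (H := fun v => Y.q ^ Y.c v) hF hH y
    rw [← hT] at h1
    have h3 : ((H899.colS Y.n F y.1 / Y.q ^ Y.c y.1 : ℕ) : ℝ) ≤
        (H899.colS Y.n F y.1 : ℝ) / ((Y.q ^ Y.c y.1 : ℕ) : ℝ) := Nat.cast_div_le
    have h4 : (∑ v, (sys hc T0).hh μ v * N v y.1) / (sys hc T0).hh μ y.1 =
        (H899.colS Y.n F y.1 : ℝ) / ((Y.q ^ Y.c y.1 : ℕ) : ℝ) := by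
      rw [hsum, hh_sys, mul_div_mul_left _ _ hμ.ne']
      push_cast
      rfl
    have h2 : (((univ.filter fun u => T0 u = y).card : ℕ) : ℝ) ≤
        (H899.colS Y.n F y.1 : ℝ) / ((Y.q ^ Y.c y.1 : ℕ) : ℝ) + 1 := by
      refine le_trans (Nat.cast_le.2 h1) ?_
      push_cast
      push_cast at h3
      linarith
    rw [← h4] at h2
    convert h2 <;> rfl
  · intro v x
    have h1 := H899.card_go (n := Y.n) (F := F) (H := fun v => Y.q ^ Y.c v) hF hH v x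
    rw [← hT] at h1
    have h2 : (((univ.filter fun u : Y.X0 => u.1 = v ∧ (T0 u).1 = x).card : ℕ) : ℝ) =
        N v x * (((univ.filter fun u : Y.X0 => u.1 = v).card : ℕ) : ℝ) := by
      rw [h1, card_X0, hN]
      push_cast
      field_simp
    convert h2 <;> rfl

end Vale.Agent.P313.H136
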