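import Mathlib.Algebra.Order.BigOperators.Ring.Finset
import Mathlib.Data.Fintype.BigOperators
import Mathlib.Data.Real.Basic
import Mathlib.Tactic

/-!
Sums over shifted and hashed codes: the second moment of a fibre.
-/

namespace Vale.Agent.P313.H136

open Finset Classical

variable {T Ec Sd : Type} [Fintype Ec] [Fintype Sd] [AddCommGroup Ec]

/-- Two different tokens. -/
theorem pair_ne (H : Sd → T → Ec) {u1 u2 : T} (φ1 φ2 : Ec → ℝ) (h1 : ∀ e, 0 ≤ φ1 e)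
    (h2 : ∀ e, 0 ≤ φ2 e) {C : ℝ}
    (hH : ∀ κ, ((univ.filter fun s => H s u1 - H s u2 = κ).card : ℝ) ≤ C) :
    ∑ e' : Ec, ∑ s : Sd, φ1 (e' - H s u1) * φ2 (e' - H s u2) ≤
      C * ((∑ e, φ1 e) * ∑ e, φ2 e) := by
  rw [sum_comm]
  have h3 : ∀ s, ∑ e' : Ec, φ1 (e' - H s u1) * φ2 (e' - H s u2) =
      ∑ e : Ec, φ1 e * φ2 (e + (H s u1 - H s u2)) := by
    intro s
    rw [← Equiv.sum_comp (Equiv.addRight (H s u1))]
    refine sum_congr rfl fun e _ => ?_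
    simp only [Equiv.coe_addRight]
    rw [add_sub_cancel_right, add_sub_assoc]
  simp_rw [h3]
  rw [sum_comm, ← mul_assoc, mul_comm C, mul_assoc, sum_mul]
  refine sum_le_sum fun e _ => ?_
  rw [← mul_sum]
  refine mul_le_mul_of_nonneg_left ?_ (h1 e)
  have h4 : ∑ s, φ2 (e + (H s u1 - H s u2)) =
      ∑ κ : Ec, ((univ.filter fun s => H s u1 - H s u2 = κ).card : ℝ) * φ2 (e + κ) := by
    rw [← sum_fiberwise univ (fun s => H s u1 - H s u2) fun s => φ2 (e + (H s u1 - H s u2))]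
    refine sum_congr rfl fun κ _ => ?_
    rw [← nsmul_eq_mul, ← sum_const]
    exact sum_congr rfl fun s hs => by rw [(mem_filter.1 hs).2]
  rw [h4]
  calc ∑ κ : Ec, ((univ.filter fun s => H s u1 - H s u2 = κ).card : ℝ) * φ2 (e + κ) ≤
        ∑ κ : Ec, C * φ2 (e + κ) :=
          sum_le_sum fun κ _ => mul_le_mul_of_nonneg_right (hH κ) (h2 _)
    _ = C * ∑ κ : Ec, φ2 κ := by
        rw [← mul_sum]
        congr 1
        exact Equiv.sum_comp (Equiv.addLeft e) φ2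

theorem pair_eq (H : Sd → T → Ec) (u : T) (φ : Ec → ℝ) :
    ∑ e' : Ec, ∑ s : Sd, φ (e' - H s u) * φ (e' - H s u) =
      Fintype.card Sd * ∑ e, φ e ^ 2 := by
  rw [sum_comm]
  have h3 : ∀ s, ∑ e' : Ec, φ (e' - H s u) * φ (e' - H s u) = ∑ e : Ec, φ e ^ 2 := by
    intro s
    rw [← Equiv.sum_comp (Equiv.addRight (H s u))]
    refine sum_congr rfl fun e _ => ?_
    simp only [Equiv.coe_addRight]
    rw [add_sub_cancel_right, sq]
  simp_rw [h3]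
  rw [sum_const, card_univ, nsmul_eq_mul]

/-- The second moment of a fibre. -/
theorem fiber_moment (H : Sd → T → Ec) (F : Finset T) (φ : T → Ec → ℝ)
    (h0 : ∀ u e, 0 ≤ φ u e) {C : ℝ} (hC : 0 ≤ C)
    (hH : ∀ u1 u2, u1 ≠ u2 → ∀ κ, ((univ.filter fun s => H s u1 - H s u2 = κ).card : ℝ) ≤ C) :
    ∑ e' : Ec, ∑ s : Sd, (∑ u ∈ F, φ u (e' - H s u)) ^ 2 ≤
      Fintype.card Sd * ∑ u ∈ F, ∑ e, φ u e ^ 2 + C * (∑ u ∈ F, ∑ e, φ u e) ^ 2 := by
  have h1 : ∀ (e' : Ec) (s : Sd), (∑ u ∈ F, φ u (e' - H s u)) ^ 2 =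
      ∑ u1 ∈ F, ∑ u2 ∈ F, φ u1 (e' - H s u1) * φ u2 (e' - H s u2) := by
    intro e' s
    rw [sq, sum_mul_sum]
  have h2 : ∑ e' : Ec, ∑ s : Sd, (∑ u ∈ F, φ u (e' - H s u)) ^ 2 =
      ∑ u1 ∈ F, ∑ u2 ∈ F, ∑ e' : Ec, ∑ s : Sd, φ u1 (e' - H s u1) * φ u2 (e' - H s u2) := by
    simp_rw [h1]
    rw [sum_congr rfl fun e' _ => sum_comm]
    rw [sum_comm]
    refine sum_congr rfl fun u1 _ => ?_
    rw [sum_congr rfl fun e' _ => sum_comm]
    rw [sum_comm]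
  rw [h2]
  have h3 : ∀ u1 ∈ F, ∀ u2 ∈ F,
      ∑ e' : Ec, ∑ s : Sd, φ u1 (e' - H s u1) * φ u2 (e' - H s u2) ≤
      (if u1 = u2 then Fintype.card Sd * ∑ e, φ u1 e ^ 2 else 0) +
        C * ((∑ e, φ u1 e) * ∑ e, φ u2 e) := by
    intro u1 _ u2 _
    by_cases h : u1 = u2
    · subst h
      rw [if_pos rfl, pair_eq]
      exact le_add_of_nonneg_right (mul_nonneg hC (mul_nonneg
        (sum_nonneg fun e _ => h0 u1 e) (sum_nonneg fun e _ => h0 u1 e)))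
    · rw [if_neg h, zero_add]
      exact pair_ne H (φ u1) (φ u2) (h0 u1) (h0 u2) (hH u1 u2 h)
  refine le_trans (sum_le_sum fun u1 hu1 => sum_le_sum fun u2 hu2 => h3 u1 hu1 u2 hu2) ?_
  simp_rw [sum_add_distrib]
  refine add_le_add (le_of_eq ?_) (le_of_eq ?_)
  · rw [mul_sum]
    refine sum_congr rfl fun u1 hu1 => ?_
    rw [sum_ite_eq, if_pos hu1]
  · rw [sq, sum_mul_sum, mul_sum]
    exact sum_congr rfl fun u1 _ => by rw [mul_sum]

end Vale.Agent.P313.H136
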