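import Vale.Agent.P313.H136.Mom

/-!
The kernels of the pseudo-random walk on the states.
-/

set_option linter.unusedSectionVars false

namespace Vale.Agent.P313.H136

open Finset Matrix

namespace Sys

open Classical

variable {V X Ec Sd : Type} {S : Sys V X Ec Sd} [AddCommGroup Ec]
  [Fintype X] [Fintype Ec] [Fintype Sd]
  {μ : ℝ} {Lam : ℕ} {Z : Set V} {a : ℕ}

variable (S) in
/-- The kernel of the walk of `2 ^ a` hops. -/
noncomputable def P (μ : ℝ) (Lam : ℕ) (Z : Set V) (a : ℕ) : Matrix V V ℝ :=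
  fun v x => S.Jv μ a (S.T Lam Z a fun y => if S.stT a y = x then 1 else 0) v

theorem card_stT (a : ℕ) (v : V) :
    (univ.filter fun u => S.stT a u = v).card =
      (univ.filter fun u => S.st u = v).card * Fintype.card (Ec × Sd) ^ a := by
  induction a with
  | zero =>
    rw [pow_zero, mul_one]
    rfl
  | succ a ih =>
    have h1 : (univ.filter fun u => S.stT (a + 1) u = v) =
        (univ.filter fun u => S.stT a u = v) ×ˢ (univ : Finset (Ec × Sd)) := by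
      ext p
      obtain ⟨u, l⟩ := p
      constructor
      · intro h
        exact mem_product.2 ⟨mem_filter.2 ⟨mem_univ _, (mem_filter.1 h).2⟩, mem_univ _⟩
      · intro h
        exact mem_filter.2 ⟨mem_univ _, (mem_filter.1 (mem_product.1 h).1).2⟩
    have h2 : ((univ.filter fun u => S.stT a u = v) ×ˢ (univ : Finset (Ec × Sd))).card =
        (univ.filter fun u => S.st u = v).card * Fintype.card (Ec × Sd) ^ (a + 1) := by
      rw [card_product, ih, card_univ, pow_succ, mul_assoc]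
    rw [← h2]
    exact congrArg Finset.card h1

theorem card_stT_mul [Nonempty Sd] (a : ℕ) (v : V) :
    S.wt μ a * ((univ.filter fun u => S.stT a u = v).card : ℝ) = S.hh μ v := by
  rw [card_stT]
  unfold wt hh
  have h1 : (Fintype.card (Ec × Sd) : ℝ) ≠ 0 := Nat.cast_ne_zero.2 Fintype.card_ne_zero
  rw [Nat.cast_mul, Nat.cast_pow]
  field_simp

theorem sum_by_state {M : Type} [AddCommMonoid M] [Fintype V] (f : Tok X (Ec × Sd) a → M) :
    ∑ u, f u = ∑ v, ∑ u ∈ univ.filter (fun u => S.stT a u = v), f u :=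
  (sum_fiberwise univ (S.stT a) f).symm

section

variable (hpos : ∀ v, 0 < S.hh μ v)
include hpos

theorem hh_mul_Jv (m : Tok X (Ec × Sd) a → ℝ) (v : V) :
    S.hh μ v * S.Jv μ a m v = ∑ u ∈ univ.filter (fun u => S.stT a u = v), S.wt μ a * m u := by
  unfold Jv
  exact mul_div_cancel₀ _ (hpos v).ne'

theorem Jv_lift [Nonempty Sd] (φ : V → ℝ) (v : V) :
    S.Jv μ a (fun u => φ (S.stT a u)) v = φ v := by
  unfold Jv
  rw [div_eq_iff (hpos v).ne', ← card_stT_mul (a := a) v]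
  have h1 : ∑ u ∈ univ.filter (fun u => S.stT a u = v), S.wt μ a * φ (S.stT a u) =
      ∑ u ∈ univ.filter (fun u => S.stT a u = v), S.wt μ a * φ v :=
    sum_congr rfl fun u hu => by rw [(mem_filter.1 hu).2]
  rw [h1, sum_const, nsmul_eq_mul]
  ring

variable [Fintype V]

theorem sum_hh_Jv (φ : V → ℝ) (m : Tok X (Ec × Sd) a → ℝ) :
    ∑ v, S.hh μ v * (φ v * S.Jv μ a m v) = ∑ u, S.wt μ a * (φ (S.stT a u) * m u) := by
  rw [sum_by_state (S := S)]
  refine sum_congr rfl fun v _ => ?_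
  have h1 : S.hh μ v * (φ v * S.Jv μ a m v) = φ v * (S.hh μ v * S.Jv μ a m v) := by ring
  rw [h1, hh_mul_Jv hpos, mul_sum]
  refine sum_congr rfl fun u hu => ?_
  rw [(mem_filter.1 hu).2]
  ring

theorem nsq_lift [Nonempty Sd] (φ : V → ℝ) :
    S.nsqT μ a (fun u => φ (S.stT a u)) = nsq (S.hh μ) φ := by
  unfold nsqT nsq
  rw [sum_by_state (S := S)]
  refine sum_congr rfl fun v _ => ?_
  have h1 : ∑ u ∈ univ.filter (fun u => S.stT a u = v), S.wt μ a * φ (S.stT a u) ^ 2 =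
      ∑ u ∈ univ.filter (fun u => S.stT a u = v), S.wt μ a * φ v ^ 2 :=
    sum_congr rfl fun u hu => by rw [(mem_filter.1 hu).2]
  rw [h1, sum_const, nsmul_eq_mul, ← card_stT_mul (a := a) v]
  ring

theorem nsq_Jv_le [Nonempty Sd] (hμ : 0 ≤ μ) (m : Tok X (Ec × Sd) a → ℝ) :
    nsq (S.hh μ) (S.Jv μ a m) ≤ S.nsqT μ a m := by
  -- pair the average with itself
  have h0 : ∀ v, 0 ≤ S.hh μ v := fun v => (hpos v).le
  have h1 : nsq (S.hh μ) (S.Jv μ a m) =
      ∑ u, S.wt μ a * (S.Jv μ a m (S.stT a u) * m u) := by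
    rw [← sum_hh_Jv hpos]
    unfold nsq
    exact sum_congr rfl fun v _ => by ring
  have h2 := ip_sq_le (w := fun _ : Tok X (Ec × Sd) a => S.wt μ a) (fun _ => wt_nonneg hμ)
    (fun u => S.Jv μ a m (S.stT a u)) m
  have h3 : nsq (fun _ => S.wt μ a) (fun u => S.Jv μ a m (S.stT a u)) =
      nsq (S.hh μ) (S.Jv μ a m) := nsq_lift hpos _
  rw [h3, ← h1, sq] at h2
  have h4 : 0 ≤ nsq (S.hh μ) (S.Jv μ a m) := nsq_nonneg h0 _
  rcases h4.lt_or_eq with h5 | h5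
  · exact le_of_mul_le_mul_left h2 h5
  · rw [← h5]
    exact nsqT_nonneg hμ m

end

theorem T_nonneg {f : Tok X (Ec × Sd) a → ℝ} (hf : ∀ u, 0 ≤ f u) (u : Tok X (Ec × Sd) a) :
    0 ≤ S.T Lam Z a f u := by
  unfold T
  split_ifs
  · exact hf _
  · exact le_refl 0

theorem Jv_nonneg (hμ : 0 ≤ μ) {m : Tok X (Ec × Sd) a → ℝ} (hm : ∀ u, 0 ≤ m u) (v : V) :
    0 ≤ S.Jv μ a m v := by
  refine div_nonneg (sum_nonneg fun u _ => mul_nonneg (wt_nonneg hμ) (hm u)) ?_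
  unfold hh
  positivity

theorem Jv_mono (hμ : 0 ≤ μ) {m m' : Tok X (Ec × Sd) a → ℝ} (hm : ∀ u, m u ≤ m' u) (v : V) :
    S.Jv μ a m v ≤ S.Jv μ a m' v := by
  refine div_le_div_of_nonneg_right (sum_le_sum fun u _ =>
    mul_le_mul_of_nonneg_left (hm u) (wt_nonneg hμ)) ?_
  unfold hh
  positivity

theorem P_nonneg (hμ : 0 ≤ μ) (v x : V) : 0 ≤ S.P μ Lam Z a v x :=
  Jv_nonneg hμ (T_nonneg fun u => by split_ifs <;> norm_num) v

theorem ok_end {u : Tok X (Ec × Sd) a} (h : S.ok Z a u) : S.stT a (S.U a u) ∉ Z := by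
  induction a with
  | zero => exact h
  | succ a ih => exact ih h.2

theorem ok_mono {Z' : Set V} (hZ : Z ⊆ Z') {u : Tok X (Ec × Sd) a} (h : S.ok Z' a u) :
    S.ok Z a u := by
  induction a with
  | zero => exact fun h1 => h (hZ h1)
  | succ a ih => exact ⟨ih h.1, ih h.2⟩

theorem al_mono {Z' : Set V} (hZ : Z ⊆ Z') {u : Tok X (Ec × Sd) a} (h : S.al Lam Z' a u) :
    S.al Lam Z a u := ⟨ok_mono hZ h.1, h.2⟩

theorem T_mono {Z' : Set V} (hZ : Z ⊆ Z') {f : Tok X (Ec × Sd) a → ℝ} (hf : ∀ u, 0 ≤ f u)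
    (u : Tok X (Ec × Sd) a) : S.T Lam Z' a f u ≤ S.T Lam Z a f u := by
  unfold T
  by_cases h : S.al Lam Z' a u
  · rw [if_pos h, if_pos (al_mono hZ h)]
  · rw [if_neg h]
    split_ifs
    · exact hf _
    · exact le_refl 0

theorem Ts_mono {Z' : Set V} (hZ : Z ⊆ Z') {g g' : Tok X (Ec × Sd) a → ℝ} (hg : ∀ u, 0 ≤ g' u)
    (hgg : ∀ u, g u ≤ g' u) (y : Tok X (Ec × Sd) a) : S.Ts Lam Z' a g y ≤ S.Ts Lam Z a g' y := by
  unfold Ts
  refine le_trans (sum_le_sum fun u _ => hgg u) ?_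
  refine sum_le_sum_of_subset_of_nonneg (fun u hu => ?_) fun u _ _ => hg u
  obtain ⟨h1, h2⟩ := (mem_filter.1 hu).2
  exact mem_filter.2 ⟨mem_univ _, h1, al_mono hZ h2⟩

theorem two_mono {Z' : Set V} (hZ : Z ⊆ Z') {m m' : Tok X (Ec × Sd) a → ℝ}
    (hm : ∀ u, 0 ≤ m' u) (hmm : ∀ u, m u ≤ m' u) (y : Tok X (Ec × Sd) (a + 1)) :
    S.two Lam Z' a m y ≤ S.two Lam Z a m' y := by
  unfold two
  refine le_trans (sum_le_sum fun u _ => hmm _) ?_
  refine sum_le_sum_of_subset_of_nonneg (fun u hu => ?_) fun u _ _ => hm _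
  obtain ⟨h1, h2⟩ := (mem_filter.1 hu).2
  exact mem_filter.2 ⟨mem_univ _, h1, al_mono hZ h2⟩

theorem P_mono (hμ : 0 ≤ μ) {Z' : Set V} (hZ : Z ⊆ Z') (v x : V) :
    S.P μ Lam Z' a v x ≤ S.P μ Lam Z a v x :=
  Jv_mono hμ (T_mono hZ fun u => by split_ifs <;> norm_num) v

theorem P_col (v : V) {x : V} (hx : x ∈ Z) : S.P μ Lam Z a v x = 0 := by
  unfold P
  have h1 : S.T Lam Z a (fun y => if S.stT a y = x then 1 else 0) = fun _ => 0 := by
    funext u
    unfold T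
    by_cases h : S.al Lam Z a u
    · have h2 : ¬ S.stT a (S.U a u) = x := by
        intro h2
        rw [← h2] at hx
        exact ok_end h.1 hx
      rw [if_pos h]
      exact if_neg h2
    · rw [if_neg h]
  rw [h1]
  unfold Jv
  simp

variable [Fintype V]

theorem T_lift_sum (f : V → ℝ) (u : Tok X (Ec × Sd) a) :
    S.T Lam Z a (fun y => f (S.stT a y)) u =
      ∑ x, S.T Lam Z a (fun y => if S.stT a y = x then 1 else 0) u * f x := by
  unfold T
  by_cases h : S.al Lam Z a u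
  · simp [h]
  · simp [h]

theorem P_mulVec (f : V → ℝ) :
    S.P μ Lam Z a *ᵥ f = S.Jv μ a (S.T Lam Z a fun y => f (S.stT a y)) := by
  funext v
  have h1 : (S.P μ Lam Z a *ᵥ f) v = ∑ x, S.P μ Lam Z a v x * f x := rfl
  rw [h1]
  unfold P Jv
  simp_rw [T_lift_sum f, div_mul_eq_mul_div, ← sum_div]
  congr 1
  simp_rw [mul_sum, sum_mul]
  rw [sum_comm]
  exact sum_congr rfl fun u _ => sum_congr rfl fun x _ => by ring

theorem P_row (hμ : 0 ≤ μ) [Nonempty Sd] (hpos : ∀ v, 0 < S.hh μ v) (v : V) :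
    ∑ x, S.P μ Lam Z a v x ≤ 1 := by
  have h1 : ∑ x, S.P μ Lam Z a v x = (S.P μ Lam Z a *ᵥ fun _ => 1) v := by
    have : (S.P μ Lam Z a *ᵥ fun _ => 1) v = ∑ x, S.P μ Lam Z a v x * 1 := rfl
    rw [this]
    simp
  rw [h1, P_mulVec]
  have h2 := Jv_lift (a := a) hpos (fun _ => (1 : ℝ)) v
  refine le_trans ?_ h2.le
  refine Jv_mono hμ (m := S.T Lam Z a fun _ => 1) (m' := fun _ => 1) (fun u => ?_) v
  unfold T
  split_ifs
  · exact le_refl (1 : ℝ)
  · exact zero_le_one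

/-- The flow with starting density `φ`, in terms of the adjoint. -/
theorem flow_eq (hpos : ∀ v, 0 < S.hh μ v) (φ : V → ℝ) (x : V) :
    ∑ v, S.hh μ v * φ v * S.P μ Lam Z a v x =
      S.hh μ x * S.Jv μ a (S.Ts Lam Z a fun u => φ (S.stT a u)) x := by
  rw [hh_mul_Jv hpos]
  unfold P
  simp_rw [mul_assoc]
  rw [sum_hh_Jv hpos, ← mul_sum, ← mul_sum, ← adj, sum_filter]
  simp

theorem nsqT_T_lift (hpos : ∀ v, 0 < S.hh μ v) (f : V → ℝ) :
    S.nsqT μ a (S.T Lam Z a fun y => f (S.stT a y)) =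
      ∑ x, (∑ v, S.hh μ v * S.P μ Lam Z a v x) * f x ^ 2 := by
  have h1 : ∑ x, (∑ v, S.hh μ v * S.P μ Lam Z a v x) * f x ^ 2 =
      ∑ v, S.hh μ v * (1 * (S.P μ Lam Z a *ᵥ fun x => f x ^ 2) v) := by
    have h2 : ∀ v, (S.P μ Lam Z a *ᵥ fun x => f x ^ 2) v = ∑ x, S.P μ Lam Z a v x * f x ^ 2 :=
      fun v => rfl
    simp_rw [h2, one_mul, mul_sum, sum_mul]
    rw [sum_comm]
    exact sum_congr rfl fun v _ => sum_congr rfl fun x _ => by ring
  rw [h1, P_mulVec, sum_hh_Jv hpos (fun _ => 1)]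
  unfold nsqT nsq T
  refine sum_congr rfl fun u _ => ?_
  split_ifs
  · ring
  · ring

theorem nsqT_T_lift_le (hpos : ∀ v, 0 < S.hh μ v) {G : ℝ}
    (hG : ∀ x, ∑ v, S.hh μ v * S.P μ Lam Z a v x ≤ G * S.hh μ x) (f : V → ℝ) :
    S.nsqT μ a (S.T Lam Z a fun y => f (S.stT a y)) ≤ G * nsq (S.hh μ) f := by
  rw [nsqT_T_lift hpos]
  unfold nsq
  rw [mul_sum]
  refine sum_le_sum fun x _ => ?_
  rw [← mul_assoc]
  exact mul_le_mul_of_nonneg_right (hG x) (sq_nonneg _)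

/-- Below level `r` the shifts are close to averaging over the tokens of a state. -/
def Mixes (S : Sys V X Ec Sd) (μ lam : ℝ) (r : ℕ) : Prop :=
  ∀ a < r, ∀ m : Tok X (Ec × Sd) a → ℝ,
    S.nsqT μ a (fun u => S.Av a m u - S.Jv μ a m (S.stT a u)) ≤ lam ^ 2 * S.nsqT μ a m

/-- Below level `r` the hash functions are almost pairwise independent. -/
def Hashes (S : Sys V X Ec Sd) (r : ℕ) : Prop :=
  ∀ a < r, ∀ u1 u2 : Tok X (Ec × Sd) a, u1 ≠ u2 → ∀ κ,
    ((univ.filter fun s => S.hs a s u1 - S.hs a s u2 = κ).card : ℝ) * Fintype.card Ec ≤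
      2 * Fintype.card Sd

theorem Ts_add (f g : Tok X (Ec × Sd) a → ℝ) :
    S.Ts Lam Z a (fun u => f u + g u) = fun y => S.Ts Lam Z a f y + S.Ts Lam Z a g y := by
  funext y
  unfold Ts
  exact sum_add_distrib

/-- The first part of the recursion for the second moments. -/
theorem two_moment (hμ : 0 ≤ μ) [Nonempty Sd] {lam : ℝ} {r : ℕ} (ha : a < r)
    (hF1 : S.Mixes μ lam r) (hF2 : S.Hashes r) {φ : V → ℝ} (hφ : ∀ v, 0 ≤ φ v) :
    S.nsqT μ (a + 1) (S.two Lam Z a (S.Ts Lam Z a fun u => φ (S.stT a u))) ≤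
      (1 + 4 * lam ^ 2 * Lam) * S.nsqT μ a (S.Ts Lam Z a fun u => φ (S.stT a u)) +
      4 * S.nsqT μ a (S.Ts Lam Z a fun u =>
        S.Jv μ a (S.Ts Lam Z a fun u => φ (S.stT a u)) (S.stT a u)) := by
  set m := S.Ts Lam Z a fun u => φ (S.stT a u) with hm
  have hm0 : ∀ u, 0 ≤ m u := Ts_nonneg fun u => hφ _
  have h1 := second_moment (Lam := Lam) (Z := Z) hμ (hF2 a ha) hm0
  have h2 : S.Av a m = fun u => S.Jv μ a m (S.stT a u) + (S.Av a m u - S.Jv μ a m (S.stT a u)) := by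
    funext u
    ring
  have h3 : S.nsqT μ a (S.Ts Lam Z a (S.Av a m)) ≤
      2 * S.nsqT μ a (S.Ts Lam Z a fun u => S.Jv μ a m (S.stT a u)) +
      2 * (Lam * (lam ^ 2 * S.nsqT μ a m)) := by
    rw [h2, Ts_add]
    refine le_trans (nsq_add_le (fun _ => wt_nonneg hμ) _ _) ?_
    refine add_le_add (le_refl _) (mul_le_mul_of_nonneg_left ?_ zero_le_two)
    refine le_trans (nsqT_Ts_le hμ card_al_le _) ?_
    exact mul_le_mul_of_nonneg_left (hF1 a ha m) (Nat.cast_nonneg _)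
  linarith

/-- The recursion for the second moments. -/
theorem moment_succ (hμ : 0 ≤ μ) [Nonempty Sd] {lam : ℝ} {r : ℕ} (ha : a < r)
    (hF1 : S.Mixes μ lam r) (hF2 : S.Hashes r) {φ : V → ℝ} (hφ : ∀ v, 0 ≤ φ v) :
    S.nsqT μ (a + 1) (S.Ts Lam Z (a + 1) fun u => φ (S.stT (a + 1) u)) ≤
      (1 + 4 * lam ^ 2 * Lam) * S.nsqT μ a (S.Ts Lam Z a fun u => φ (S.stT a u)) +
      4 * S.nsqT μ a (S.Ts Lam Z a fun u =>
        S.Jv μ a (S.Ts Lam Z a fun u => φ (S.stT a u)) (S.stT a u)) := by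
  refine le_trans ?_ (two_moment hμ ha hF1 hF2 hφ)
  refine nsq_mono' (fun _ => wt_nonneg hμ) (Ts_nonneg fun u => hφ _) fun y => ?_
  have h1 := Ts_succ (S := S) (Lam := Lam) (Z := Z) (fun u => φ (S.stT a u)) y
  have h2 : S.Ts Lam Z (a + 1) (fun u => φ (S.stT (a + 1) u)) y =
      S.Ts Lam Z (a + 1) (fun p => φ (S.stT a p.1)) y := rfl
  rw [h2, h1]
  split_ifs
  · exact le_refl _
  · exact two_nonneg (Ts_nonneg fun u => hφ _) y

end Sys

end Vale.Agent.P313.H136
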