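import Mathlib.Algebra.Order.BigOperators.Ring.Finset
import Mathlib.Analysis.SpecialFunctions.Pow.Real
import Mathlib.LinearAlgebra.Matrix.Defs
import Mathlib.Data.Matrix.Mul
import Mathlib.Tactic

/-!
Weighted square norms on finite sets, and operator bounds for square matrices.
-/

namespace Vale.Agent.P313.H136

open Finset Matrix

section Norm

variable {X : Type} [Fintype X]

/-- The weighted sum of squares. -/
def nsq (w f : X → ℝ) : ℝ := ∑ x, w x * f x ^ 2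

/-- The weighted square norm. -/
noncomputable def nrm (w f : X → ℝ) : ℝ := √(nsq w f)

theorem nsq_nonneg {w : X → ℝ} (hw : ∀ x, 0 ≤ w x) (f : X → ℝ) : 0 ≤ nsq w f :=
  sum_nonneg fun x _ => mul_nonneg (hw x) (sq_nonneg _)

theorem nrm_nonneg (w f : X → ℝ) : 0 ≤ nrm w f := Real.sqrt_nonneg _

theorem nrm_sq {w : X → ℝ} (hw : ∀ x, 0 ≤ w x) (f : X → ℝ) : nrm w f ^ 2 = nsq w f :=
  Real.sq_sqrt (nsq_nonneg hw f)

theorem nrm_le_of_nsq_le {w f : X → ℝ} {c : ℝ} (hc : 0 ≤ c) (h : nsq w f ≤ c ^ 2) :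
    nrm w f ≤ c := Real.sqrt_le_iff.2 ⟨hc, h⟩

theorem nsq_le_of_nrm_le {w f : X → ℝ} {c : ℝ} (hw : ∀ x, 0 ≤ w x) (h : nrm w f ≤ c) :
    nsq w f ≤ c ^ 2 := by
  rw [← nrm_sq hw]
  exact pow_le_pow_left₀ (nrm_nonneg w f) h 2

/-- Cauchy-Schwarz. -/
theorem ip_sq_le {w : X → ℝ} (hw : ∀ x, 0 ≤ w x) (f g : X → ℝ) :
    (∑ x, w x * (f x * g x)) ^ 2 ≤ nsq w f * nsq w g := by
  have h := sum_mul_sq_le_sq_mul_sq univ (fun x => √(w x) * f x) (fun x => √(w x) * g x)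
  have h1 : ∀ x, √(w x) * f x * (√(w x) * g x) = w x * (f x * g x) := by
    intro x
    have := Real.mul_self_sqrt (hw x)
    calc _ = (√(w x) * √(w x)) * (f x * g x) := by ring
      _ = _ := by rw [this]
  have h2 : ∀ (f : X → ℝ) x, (√(w x) * f x) ^ 2 = w x * f x ^ 2 := by
    intro f x
    rw [mul_pow, Real.sq_sqrt (hw x)]
  simp only [h1, h2] at h
  exact h

theorem abs_ip_le {w : X → ℝ} (hw : ∀ x, 0 ≤ w x) (f g : X → ℝ) :
    |∑ x, w x * (f x * g x)| ≤ nrm w f * nrm w g := by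
  refine abs_le_of_sq_le_sq ?_ (mul_nonneg (nrm_nonneg _ _) (nrm_nonneg _ _))
  rw [mul_pow, nrm_sq hw, nrm_sq hw]
  exact ip_sq_le hw f g

theorem ip_le {w : X → ℝ} (hw : ∀ x, 0 ≤ w x) (f g : X → ℝ) :
    ∑ x, w x * (f x * g x) ≤ nrm w f * nrm w g :=
  le_trans (le_abs_self _) (abs_ip_le hw f g)

theorem nsq_add (w f g : X → ℝ) :
    nsq w (fun x => f x + g x) = nsq w f + 2 * (∑ x, w x * (f x * g x)) + nsq w g := by
  unfold nsq
  rw [mul_sum, ← sum_add_distrib, ← sum_add_distrib]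
  exact sum_congr rfl fun x _ => by ring

theorem nrm_add_le {w : X → ℝ} (hw : ∀ x, 0 ≤ w x) (f g : X → ℝ) :
    nrm w (fun x => f x + g x) ≤ nrm w f + nrm w g := by
  refine nrm_le_of_nsq_le (add_nonneg (nrm_nonneg _ _) (nrm_nonneg _ _)) ?_
  rw [nsq_add, add_sq, nrm_sq hw, nrm_sq hw]
  have := ip_le hw f g
  linarith

theorem nsq_add_le {w : X → ℝ} (hw : ∀ x, 0 ≤ w x) (f g : X → ℝ) :
    nsq w (fun x => f x + g x) ≤ 2 * nsq w f + 2 * nsq w g := by
  unfold nsq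
  rw [mul_sum, mul_sum, ← sum_add_distrib]
  refine sum_le_sum fun x _ => ?_
  nlinarith [mul_nonneg (hw x) (sq_nonneg (f x - g x))]

theorem nsq_smul (w f : X → ℝ) (c : ℝ) : nsq w (fun x => c * f x) = c ^ 2 * nsq w f := by
  unfold nsq
  rw [mul_sum]
  exact sum_congr rfl fun x _ => by ring

theorem nrm_smul (w : X → ℝ) (f : X → ℝ) (c : ℝ) :
    nrm w (fun x => c * f x) = |c| * nrm w f := by
  unfold nrm
  rw [nsq_smul, Real.sqrt_mul (sq_nonneg c), Real.sqrt_sq_eq_abs]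

theorem nsq_mono {w : X → ℝ} (hw : ∀ x, 0 ≤ w x) {f g : X → ℝ} (h : ∀ x, |f x| ≤ |g x|) :
    nsq w f ≤ nsq w g :=
  sum_le_sum fun x _ => mul_le_mul_of_nonneg_left (sq_le_sq.2 (h x)) (hw x)

theorem nsq_mono' {w : X → ℝ} (hw : ∀ x, 0 ≤ w x) {f g : X → ℝ} (h0 : ∀ x, 0 ≤ f x)
    (h : ∀ x, f x ≤ g x) : nsq w f ≤ nsq w g :=
  nsq_mono hw fun x => by
    rw [abs_of_nonneg (h0 x), abs_of_nonneg (le_trans (h0 x) (h x))]
    exact h x

theorem nrm_mono {w : X → ℝ} (hw : ∀ x, 0 ≤ w x) {f g : X → ℝ} (h : ∀ x, |f x| ≤ |g x|) :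
    nrm w f ≤ nrm w g := Real.sqrt_le_sqrt (nsq_mono hw h)

theorem nrm_zero (w : X → ℝ) : nrm w (fun _ => 0) = 0 := by
  unfold nrm nsq
  simp

theorem nrm_le_nrm_of_nsq {Y : Type} [Fintype Y] {w : X → ℝ} {w' : Y → ℝ} {f : X → ℝ}
    {g : Y → ℝ} {c : ℝ} (hw' : ∀ y, 0 ≤ w' y) (hc : 0 ≤ c)
    (h : nsq w f ≤ c ^ 2 * nsq w' g) : nrm w f ≤ c * nrm w' g := by
  refine nrm_le_of_nsq_le (mul_nonneg hc (nrm_nonneg _ _)) ?_
  rwa [mul_pow, nrm_sq hw']

end Norm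

section Op

variable {V : Type} [Fintype V]

/-- The matrix `A` has operator norm at most `c` for the square norm with weight `h`. -/
def OpB (h : V → ℝ) (A : Matrix V V ℝ) (c : ℝ) : Prop :=
  ∀ f : V → ℝ, nrm h (A *ᵥ f) ≤ c * nrm h f

variable {h : V → ℝ}

theorem OpB.mono {A : Matrix V V ℝ} {c d : ℝ} (hA : OpB h A c) (hcd : c ≤ d) : OpB h A d :=
  fun f => le_trans (hA f) (mul_le_mul_of_nonneg_right hcd (nrm_nonneg _ _))

theorem OpB.mul {A B : Matrix V V ℝ} {c d : ℝ} (hc : 0 ≤ c) (hA : OpB h A c) (hB : OpB h B d) :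
    OpB h (A * B) (c * d) := by
  intro f
  rw [← mulVec_mulVec, mul_assoc]
  exact le_trans (hA _) (mul_le_mul_of_nonneg_left (hB f) hc)

theorem OpB.add (h0 : ∀ v, 0 ≤ h v) {A B : Matrix V V ℝ} {c d : ℝ} (hA : OpB h A c)
    (hB : OpB h B d) : OpB h (A + B) (c + d) := by
  intro f
  rw [add_mulVec, add_mul]
  exact le_trans (nrm_add_le h0 _ _) (add_le_add (hA f) (hB f))

theorem OpB.smul {A : Matrix V V ℝ} {c : ℝ} (hA : OpB h A c) (t : ℝ) :
    OpB h (t • A) (|t| * c) := by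
  intro f
  have h1 : (t • A) *ᵥ f = fun x => t * (A *ᵥ f) x := by
    rw [smul_mulVec]
    rfl
  rw [h1, nrm_smul h, mul_assoc]
  exact mul_le_mul_of_nonneg_left (hA f) (abs_nonneg t)

theorem OpB.neg {A : Matrix V V ℝ} {c : ℝ} (hA : OpB h A c) :
    OpB h (-A) c := by
  have := hA.smul (-1)
  simpa using this

theorem OpB.sub (h0 : ∀ v, 0 ≤ h v) {A B : Matrix V V ℝ} {c d : ℝ} (hA : OpB h A c)
    (hB : OpB h B d) : OpB h (A - B) (c + d) := by
  rw [sub_eq_add_neg]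
  exact hA.add h0 hB.neg

theorem OpB.zero : OpB h (0 : Matrix V V ℝ) 0 := by
  intro f
  rw [zero_mulVec, zero_mul]
  exact (nrm_zero h).le

theorem OpB.sum (h0 : ∀ v, 0 ≤ h v) {ι : Type} (s : Finset ι) {A : ι → Matrix V V ℝ}
    {c : ι → ℝ} (hA : ∀ i ∈ s, OpB h (A i) (c i)) : OpB h (∑ i ∈ s, A i) (∑ i ∈ s, c i) := by
  classical
  induction s using Finset.induction_on with
  | empty => simpa using OpB.zero
  | insert i s hi ih =>
    rw [sum_insert hi, sum_insert hi]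
    exact (hA i (mem_insert_self i s)).add h0 (ih fun j hj => hA j (mem_insert_of_mem hj))

theorem OpB.one [DecidableEq V] : OpB h (1 : Matrix V V ℝ) 1 := by
  intro f
  rw [one_mulVec, one_mul]

theorem OpB.pow [DecidableEq V] {A : Matrix V V ℝ} {c : ℝ} (hc : 0 ≤ c) (hA : OpB h A c)
    (m : ℕ) : OpB h (A ^ m) (c ^ m) := by
  induction m with
  | zero => simpa using OpB.one
  | succ m ih =>
    rw [pow_succ, pow_succ]
    exact ih.mul (pow_nonneg hc m) hA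

/-- The Schur test. -/
theorem OpB.schur (h0 : ∀ v, 0 ≤ h v) {P : Matrix V V ℝ} {c : ℝ} (hP : ∀ v x, 0 ≤ P v x)
    (h1 : ∀ v, ∑ x, P v x ≤ 1) (hc : ∀ x, ∑ v, h v * P v x ≤ c * h x) :
    OpB h P (√c) := by
  intro f
  by_cases hc0 : 0 ≤ c
  · refine nrm_le_nrm_of_nsq h0 (Real.sqrt_nonneg _) ?_
    rw [Real.sq_sqrt hc0]
    unfold nsq
    have key : ∀ v, (P *ᵥ f) v ^ 2 ≤ ∑ x, P v x * f x ^ 2 := by
      intro v
      have h2 := ip_sq_le (w := fun x => P v x) (hP v) (fun _ => 1) f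
      unfold nsq at h2
      simp only [one_mul, one_pow, mul_one] at h2
      have h3 : (P *ᵥ f) v = ∑ x, P v x * f x := rfl
      rw [h3]
      refine le_trans h2 ?_
      refine mul_le_of_le_one_left ?_ (h1 v)
      exact sum_nonneg fun x _ => mul_nonneg (hP v x) (sq_nonneg _)
    calc ∑ v, h v * (P *ᵥ f) v ^ 2 ≤ ∑ v, h v * ∑ x, P v x * f x ^ 2 :=
          sum_le_sum fun v _ => mul_le_mul_of_nonneg_left (key v) (h0 v)
      _ = ∑ x, (∑ v, h v * P v x) * f x ^ 2 := by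
          simp_rw [mul_sum, sum_mul]
          rw [sum_comm]
          exact sum_congr rfl fun x _ => sum_congr rfl fun v _ => by ring
      _ ≤ ∑ x, (c * h x) * f x ^ 2 :=
          sum_le_sum fun x _ => mul_le_mul_of_nonneg_right (hc x) (sq_nonneg _)
      _ = c * ∑ x, h x * f x ^ 2 := by
          rw [mul_sum]
          exact sum_congr rfl fun x _ => by ring
  · -- all weights vanish
    push Not at hc0
    have h2 : ∀ x, h x = 0 := by
      intro x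
      have h3 : 0 ≤ ∑ v, h v * P v x := sum_nonneg fun v _ => mul_nonneg (h0 v) (hP v x)
      have h4 := hc x
      have h5 := h0 x
      nlinarith
    have h6 : ∀ g : V → ℝ, nrm h g = 0 := by
      intro g
      unfold nrm nsq
      simp [h2]
    rw [h6, h6, mul_zero]

/-- Entries of a matrix of small operator norm. -/
theorem OpB.entry [DecidableEq V] (h0 : ∀ v, 0 < h v) {A : Matrix V V ℝ} {c : ℝ}
    (hA : OpB h A c) (v x : V) : |A v x| ≤ c * √(h x / h v) := by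
  have h1 := hA (Pi.single x 1)
  have h2 : nrm h (Pi.single x (1 : ℝ)) = √(h x) := by
    unfold nrm nsq
    congr 1
    rw [sum_eq_single x]
    · simp
    · intro y _ hy
      simp [hy]
    · simp
  rw [h2] at h1
  have h3 : √(h v) * |A v x| ≤ nrm h (A *ᵥ Pi.single x 1) := by
    unfold nrm nsq
    rw [← Real.sqrt_sq_eq_abs, ← Real.sqrt_mul (h0 v).le]
    refine Real.sqrt_le_sqrt ?_
    have h4 := single_le_sum (f := fun y => h y * (A *ᵥ Pi.single x 1) y ^ 2)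
      (fun y _ => mul_nonneg (h0 y).le (sq_nonneg _)) (mem_univ v)
    refine le_trans (le_of_eq ?_) h4
    simp
  have h5 : 0 < √(h v) := Real.sqrt_pos.2 (h0 v)
  rw [Real.sqrt_div (h0 x).le, ← mul_div_assoc, le_div_iff₀ h5, mul_comm]
  exact le_trans h3 h1

/-- Operator bound from small entries. -/
theorem OpB.of_entry (h0 : ∀ v, 0 < h v) {A : Matrix V V ℝ} {c B : ℝ} (hc : 0 ≤ c)
    (hA : ∀ v x, |A v x| ≤ c) (hB : ∀ x, (∑ v, h v) ≤ B * h x) (hB0 : 0 ≤ B) :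
    OpB h A (c * √(Fintype.card V * B)) := by
  intro f
  have h0' : ∀ v, 0 ≤ h v := fun v => (h0 v).le
  refine nrm_le_nrm_of_nsq h0' (mul_nonneg hc (Real.sqrt_nonneg _)) ?_
  rw [mul_pow, Real.sq_sqrt (mul_nonneg (Nat.cast_nonneg _) hB0)]
  have h1 : ∀ v, (A *ᵥ f) v ^ 2 ≤ c ^ 2 * (Fintype.card V * ∑ x, f x ^ 2) := by
    intro v
    have h2 : |(A *ᵥ f) v| ≤ c * ∑ x, |f x| := by
      rw [mul_sum]
      refine le_trans (abs_sum_le_sum_abs _ _) (sum_le_sum fun x _ => ?_)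
      rw [abs_mul]
      exact mul_le_mul_of_nonneg_right (hA v x) (abs_nonneg _)
    have h3 : (∑ x : V, |f x|) ^ 2 ≤ Fintype.card V * ∑ x, f x ^ 2 := by
      have h4 := sum_mul_sq_le_sq_mul_sq univ (fun _ : V => (1 : ℝ)) (fun x => |f x|)
      simpa using h4
    calc (A *ᵥ f) v ^ 2 = |(A *ᵥ f) v| ^ 2 := (sq_abs _).symm
      _ ≤ (c * ∑ x, |f x|) ^ 2 := pow_le_pow_left₀ (abs_nonneg _) h2 2
      _ = c ^ 2 * (∑ x, |f x|) ^ 2 := by ring
      _ ≤ _ := mul_le_mul_of_nonneg_left h3 (sq_nonneg _)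
  calc nsq h (A *ᵥ f) ≤ ∑ v, h v * (c ^ 2 * (Fintype.card V * ∑ x, f x ^ 2)) :=
        sum_le_sum fun v _ => mul_le_mul_of_nonneg_left (h1 v) (h0' v)
    _ = c ^ 2 * Fintype.card V * ∑ x, (∑ v, h v) * f x ^ 2 := by
        rw [← sum_mul, ← mul_sum]
        ring
    _ ≤ c ^ 2 * Fintype.card V * ∑ x, (B * h x) * f x ^ 2 := by
        refine mul_le_mul_of_nonneg_left ?_ (by positivity)
        exact sum_le_sum fun x _ => mul_le_mul_of_nonneg_right (hB x) (sq_nonneg _)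
    _ = c ^ 2 * (Fintype.card V * B) * nsq h f := by
        unfold nsq
        simp_rw [mul_assoc B]
        rw [← mul_sum]
        ring

end Op

end Vale.Agent.P313.H136
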