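import Vale.Agent.P313.H136.L2

/-!
Levels: tokens with labels, the pseudo-random walk of `2 ^ a` hops, the size of the backward
tree, and the walks which avoid a set.
-/

namespace Vale.Agent.P313.H136

open Finset Matrix

/-- Tokens of level `a`: a token of level `0` and `a` labels. -/
def Tok (X L : Type) : ℕ → Type
  | 0 => X
  | a + 1 => Tok X L a × L

/-- Tokens form a finite type. -/
instance Tok.fintype (X L : Type) [Fintype X] [Fintype L] : ∀ a, Fintype (Tok X L a)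
  | 0 => (inferInstance : Fintype X)
  | a + 1 => @instFintypeProd _ _ (Tok.fintype X L a) _

/-- The data of a walk on tokens: states of tokens, one hop, the shifts and the hash functions. -/
structure Sys (V X Ec Sd : Type) where
  st : X → V
  T0 : X → X
  sh : ∀ a, Ec → Equiv.Perm (Tok X (Ec × Sd) a)
  hs : ∀ a, Sd → Tok X (Ec × Sd) a → Ec

namespace Sys

open Classical

variable {V X Ec Sd : Type} (S : Sys V X Ec Sd)

/-- The state of a token. -/
def stT : ∀ a, Tok X (Ec × Sd) a → V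
  | 0 => S.st
  | a + 1 => fun p => stT a p.1

section group

variable [AddCommGroup Ec]

/-- The mixing step on tokens of level `a + 1`. -/
def R (a : ℕ) (p : Tok X (Ec × Sd) a × (Ec × Sd)) : Tok X (Ec × Sd) a × (Ec × Sd) :=
  (S.sh a p.2.1 p.1, (p.2.1 + S.hs a p.2.2 (S.sh a p.2.1 p.1), p.2.2))

/-- The inverse of the mixing step. -/
def Ri (a : ℕ) (p : Tok X (Ec × Sd) a × (Ec × Sd)) : Tok X (Ec × Sd) a × (Ec × Sd) :=
  ((S.sh a (p.2.1 - S.hs a p.2.2 p.1)).symm p.1, (p.2.1 - S.hs a p.2.2 p.1, p.2.2))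

theorem R_Ri (a : ℕ) (p : Tok X (Ec × Sd) a × (Ec × Sd)) : S.R a (S.Ri a p) = p := by
  obtain ⟨u, e, s⟩ := p
  simp [R, Ri]

theorem Ri_R (a : ℕ) (p : Tok X (Ec × Sd) a × (Ec × Sd)) : S.Ri a (S.R a p) = p := by
  obtain ⟨u, e, s⟩ := p
  simp [R, Ri]

/-- The mixing step is a bijection. -/
def Req (a : ℕ) : Equiv.Perm (Tok X (Ec × Sd) a × (Ec × Sd)) where
  toFun := S.R a
  invFun := S.Ri a
  left_inv := S.Ri_R a
  right_inv := S.R_Ri a

/-- The walk of `2 ^ a` hops. -/
def U : ∀ a, Tok X (Ec × Sd) a → Tok X (Ec × Sd) a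
  | 0 => S.T0
  | a + 1 => fun p => (U a (S.R a (U a p.1, p.2)).1, (S.R a (U a p.1, p.2)).2)

/-- The walk of `2 ^ a` hops avoids the set `Z` at the times `1, ..., 2 ^ a`. -/
def ok (Z : Set V) : ∀ a, Tok X (Ec × Sd) a → Prop
  | 0 => fun u => S.st (S.T0 u) ∉ Z
  | a + 1 => fun p => ok Z a p.1 ∧ ok Z a (S.R a (S.U a p.1, p.2)).1

variable [Fintype X] [Fintype Ec] [Fintype Sd]

/-- The number of nodes of the backward tree of a token, without the root. -/
noncomputable def W : ∀ a, Tok X (Ec × Sd) a → ℕ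
  | 0 => fun y => ((univ : Finset X).filter fun u => S.T0 u = y).card
  | a + 1 => fun y => W a y.1 +
      ∑ u' ∈ univ.filter (fun u' => S.U a u' = y.1), W a (S.Ri a (u', y.2)).1

/-- The walk from `u` avoids `Z` and ends in a token whose backward tree is small. -/
def al (Lam : ℕ) (Z : Set V) (a : ℕ) (u : Tok X (Ec × Sd) a) : Prop :=
  S.ok Z a u ∧ S.W a (S.U a u) < Lam

theorem card_fib (a : ℕ) (y : Tok X (Ec × Sd) a) :
    (univ.filter fun u => S.U a u = y).card ≤ S.W a y := by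
  induction a with
  | zero => exact le_refl _
  | succ a ih =>
    obtain ⟨y0, l⟩ := y
    -- the fibre is covered by the fibres over the middle tokens
    have h1 : (univ.filter fun u => S.U (a + 1) u = (y0, l)) ⊆
        (univ.filter fun u' => S.U a u' = y0).biUnion fun u' =>
          (univ.filter fun u => S.U a u = (S.Ri a (u', l)).1).image fun u =>
            ((u, (S.Ri a (u', l)).2) : Tok X (Ec × Sd) a × (Ec × Sd)) := by
      intro p hp
      obtain ⟨u, l'⟩ := p
      have h2 : (S.U a (S.R a (S.U a u, l')).1, (S.R a (S.U a u, l')).2) = (y0, l) :=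
        (mem_filter.1 hp).2
      rw [Prod.mk.injEq] at h2
      refine mem_biUnion.2 ⟨(S.R a (S.U a u, l')).1, mem_filter.2 ⟨mem_univ _, h2.1⟩, ?_⟩
      refine mem_image.2 ⟨u, mem_filter.2 ⟨mem_univ _, ?_⟩, ?_⟩
      · rw [← h2.2]
        change S.U a u = (S.Ri a (S.R a (S.U a u, l'))).1
        rw [S.Ri_R]
      · rw [← h2.2]
        change (u, (S.Ri a (S.R a (S.U a u, l'))).2) = (u, l')
        rw [S.Ri_R]
    refine le_trans (card_le_card h1) (le_trans card_biUnion_le ?_)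
    refine le_trans (sum_le_sum fun u' _ => le_trans card_image_le (ih _)) ?_
    exact Nat.le_add_left _ _

theorem W_le_succ (a : ℕ) (y : Tok X (Ec × Sd) a) (l : Ec × Sd) :
    S.W a y ≤ S.W (a + 1) (y, l) := Nat.le_add_right _ _

theorem W_mid_le (a : ℕ) (u : Tok X (Ec × Sd) a) (l : Ec × Sd) :
    S.W a (S.U a u) ≤ S.W (a + 1) (S.U (a + 1) (u, l)) := by
  have h1 : S.U (a + 1) (u, l) = (S.U a (S.R a (S.U a u, l)).1, (S.R a (S.U a u, l)).2) := rfl
  rw [h1]
  refine le_trans ?_ (Nat.le_add_left _ _)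
  have h2 : S.W a (S.U a u) = S.W a (S.Ri a ((S.R a (S.U a u, l)).1, (S.R a (S.U a u, l)).2)).1 := by
    change _ = S.W a (S.Ri a (S.R a (S.U a u, l))).1
    rw [S.Ri_R]
  rw [h2]
  exact single_le_sum (f := fun u' => S.W a (S.Ri a (u', (S.R a (S.U a u, l)).2)).1)
    (fun _ _ => Nat.zero_le _) (mem_filter.2 ⟨mem_univ _, rfl⟩)

theorem al_succ_iff (Lam : ℕ) (Z : Set V) (a : ℕ) (u : Tok X (Ec × Sd) a) (l : Ec × Sd) :
    S.al Lam Z (a + 1) (u, l) ↔ (S.al Lam Z a u ∧ S.al Lam Z a (S.R a (S.U a u, l)).1) ∧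
      S.W (a + 1) (S.U (a + 1) (u, l)) < Lam := by
  constructor
  · rintro ⟨⟨h1, h2⟩, h3⟩
    refine ⟨⟨⟨h1, lt_of_le_of_lt (S.W_mid_le a u l) h3⟩, h2, lt_of_le_of_lt ?_ h3⟩, h3⟩
    exact S.W_le_succ a _ _
  · rintro ⟨⟨h1, h2⟩, h3⟩
    exact ⟨⟨h1.1, h2.1⟩, h3⟩

theorem card_tok_succ (X L : Type) [Fintype X] [Fintype L] (a : ℕ) :
    Fintype.card (Tok X L (a + 1)) = Fintype.card (Tok X L a) * Fintype.card L :=
  Fintype.card_prod _ _

theorem sum_tok_succ {M : Type} [AddCommMonoid M] (X L : Type) [Fintype X] [Fintype L] (a : ℕ)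
    (f : Tok X L (a + 1) → M) : ∑ p, f p = ∑ u : Tok X L a, ∑ l : L, f (u, l) :=
  Fintype.sum_prod_type _

/-- The sum of the sizes of all trees. -/
theorem sum_W (a : ℕ) : ∑ y, S.W a y = 2 ^ a * Fintype.card (Tok X (Ec × Sd) a) := by
  induction a with
  | zero =>
    change ∑ y : X, ((univ : Finset X).filter fun u => S.T0 u = y).card = _
    have h2 : ∑ y : X, ((univ : Finset X).filter fun u => S.T0 u = y).card = Fintype.card X := by
      rw [← card_univ]
      exact (card_eq_sum_card_fiberwise fun x _ => mem_univ (S.T0 x)).symm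
    rw [h2, pow_zero, one_mul]
    rfl
  | succ a ih =>
    have h1 : ∑ y : Tok X (Ec × Sd) (a + 1), S.W (a + 1) y =
        ∑ y : Tok X (Ec × Sd) a, ∑ l : Ec × Sd, (S.W a y +
          ∑ u' ∈ univ.filter (fun u' => S.U a u' = y), W S a (S.Ri a (u', l)).1) :=
      sum_tok_succ _ _ _ _
    rw [h1]
    simp_rw [sum_add_distrib]
    have h2 : ∑ y : Tok X (Ec × Sd) a, ∑ _l : Ec × Sd, S.W a y =
        Fintype.card (Ec × Sd) * ∑ y : Tok X (Ec × Sd) a, S.W a y := by
      rw [mul_sum]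
      exact sum_congr rfl fun y _ => by rw [sum_const, card_univ, smul_eq_mul]
    have h3 : ∑ y : Tok X (Ec × Sd) a, ∑ l : Ec × Sd,
        ∑ u' ∈ univ.filter (fun u' => S.U a u' = y), S.W a (S.Ri a (u', l)).1 =
        Fintype.card (Ec × Sd) * ∑ y : Tok X (Ec × Sd) a, S.W a y := by
      rw [sum_comm]
      have h4 : ∀ l : Ec × Sd, ∑ y : Tok X (Ec × Sd) a,
          ∑ u' ∈ univ.filter (fun u' => S.U a u' = y), S.W a (S.Ri a (u', l)).1 =
          ∑ u' : Tok X (Ec × Sd) a, S.W a (S.Ri a (u', l)).1 := fun l =>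
        sum_fiberwise univ (S.U a) fun u' => S.W a (S.Ri a (u', l)).1
      simp_rw [h4]
      rw [sum_comm]
      have h5 : ∑ u : Tok X (Ec × Sd) a, ∑ l : Ec × Sd, S.W a (S.Ri a (u, l)).1 =
          ∑ p : Tok X (Ec × Sd) a × (Ec × Sd), S.W a ((S.Req a).symm p).1 :=
        (Fintype.sum_prod_type (f := fun p : Tok X (Ec × Sd) a × (Ec × Sd) =>
          S.W a ((S.Req a).symm p).1)).symm
      rw [h5, Equiv.sum_comp (S.Req a).symm fun p => S.W a p.1, Fintype.sum_prod_type]
      exact h2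
    rw [h2, h3, ih, card_tok_succ]
    ring

end group

end Sys

end Vale.Agent.P313.H136
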