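import Vale.Agent.P313.H136.L2

/-!
Products of matrices `1 + x i` with nonnegative entries.
-/

set_option linter.unusedSectionVars false

namespace Vale.Agent.P313.H136

open Finset Matrix

variable {V : Type} [Fintype V] [DecidableEq V]

/-- The product `(1 + x (a + n - 1)) * ... * (1 + x a)`. -/
def Et (x : ℕ → Matrix V V ℝ) (a : ℕ) : ℕ → Matrix V V ℝ
  | 0 => 1
  | n + 1 => (1 + x (a + n)) * Et x a n

theorem mul_nonneg_entry {A B : Matrix V V ℝ} (hA : ∀ v w, 0 ≤ A v w) (hB : ∀ v w, 0 ≤ B v w)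
    (v w : V) : 0 ≤ (A * B) v w := by
  rw [mul_apply]
  exact sum_nonneg fun u _ => mul_nonneg (hA _ _) (hB _ _)

theorem one_nonneg_entry (v w : V) : (0 : ℝ) ≤ (1 : Matrix V V ℝ) v w := by
  rw [one_apply]
  split_ifs <;> norm_num

theorem add_nonneg_entry {A B : Matrix V V ℝ} (hA : ∀ v w, 0 ≤ A v w) (hB : ∀ v w, 0 ≤ B v w)
    (v w : V) : 0 ≤ (A + B) v w := add_nonneg (hA v w) (hB v w)

theorem mul_mono_entry {A A' B B' : Matrix V V ℝ} (hA : ∀ v w, 0 ≤ A v w)
    (hAA : ∀ v w, A v w ≤ A' v w) (hB : ∀ v w, 0 ≤ B v w) (hBB : ∀ v w, B v w ≤ B' v w)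
    (v w : V) : (A * B) v w ≤ (A' * B') v w := by
  rw [mul_apply, mul_apply]
  exact sum_le_sum fun u _ => mul_le_mul (hAA _ _) (hBB _ _) (hB _ _)
    (le_trans (hA _ _) (hAA _ _))

theorem Et_nonneg {x : ℕ → Matrix V V ℝ} {a n : ℕ} (hx : ∀ i, i < a + n → ∀ v w, 0 ≤ x i v w) :
    ∀ v w, 0 ≤ Et x a n v w := by
  induction n with
  | zero => exact one_nonneg_entry
  | succ n ih =>
    exact mul_nonneg_entry (add_nonneg_entry one_nonneg_entry (hx _ (by omega)))
      (ih fun i hi => hx i (by omega))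

theorem Et_mono {x x' : ℕ → Matrix V V ℝ} {a n : ℕ} (hx : ∀ i, i < a + n → ∀ v w, 0 ≤ x i v w)
    (hxx : ∀ i, i < a + n → ∀ v w, x i v w ≤ x' i v w) :
    ∀ v w, Et x a n v w ≤ Et x' a n v w := by
  induction n with
  | zero => exact fun v w => le_refl _
  | succ n ih =>
    refine mul_mono_entry (add_nonneg_entry one_nonneg_entry (hx _ (by omega))) ?_
      (Et_nonneg fun i hi => hx i (by omega)) (ih (fun i hi => hx i (by omega))
        fun i hi => hxx i (by omega))
    exact fun v w => add_le_add (le_refl _) (hxx _ (by omega) v w)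

theorem Et_succ_left_le {x : ℕ → Matrix V V ℝ} {a n : ℕ}
    (hx : ∀ i, i < a + (n + 1) → ∀ v w, 0 ≤ x i v w) (v w : V) :
    Et x a n v w ≤ Et x a (n + 1) v w := by
  have h1 : Et x a (n + 1) = Et x a n + x (a + n) * Et x a n := by
    change (1 + x (a + n)) * Et x a n = _
    rw [add_mul, one_mul]
  rw [h1, Matrix.add_apply]
  exact le_add_of_nonneg_right (mul_nonneg_entry (hx _ (by omega))
    (Et_nonneg fun i hi => hx i (by omega)) v w)

theorem Et_add (x : ℕ → Matrix V V ℝ) (a n : ℕ) : Et x 0 (a + n) = Et x a n * Et x 0 a := by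
  induction n with
  | zero => exact (one_mul _).symm
  | succ n ih =>
    change (1 + x (0 + (a + n))) * Et x 0 (a + n) = (1 + x (a + n)) * Et x a n * Et x 0 a
    rw [ih, zero_add, mul_assoc]

theorem one_le_Et {x : ℕ → Matrix V V ℝ} {a n : ℕ} (hx : ∀ i, i < a + n → ∀ v w, 0 ≤ x i v w)
    (v w : V) : (1 : Matrix V V ℝ) v w ≤ Et x a n v w := by
  induction n with
  | zero => exact le_refl _
  | succ n ih =>
    exact le_trans (ih fun i hi => hx i (by omega)) (Et_succ_left_le hx v w)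

theorem Et_le_full {x : ℕ → Matrix V V ℝ} {a n r : ℕ} (har : a + n ≤ r)
    (hx : ∀ i, i < r → ∀ v w, 0 ≤ x i v w) (v w : V) : Et x a n v w ≤ Et x 0 r v w := by
  have h1 : Et x a n v w ≤ Et x 0 (a + n) v w := by
    rw [Et_add]
    have h2 : Et x a n = Et x a n * 1 := (mul_one _).symm
    conv_lhs => rw [h2]
    exact mul_mono_entry (Et_nonneg fun i hi => hx i (by omega)) (fun _ _ => le_refl _)
      one_nonneg_entry (one_le_Et fun i hi => hx i (by omega)) v w
  refine le_trans h1 ?_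
  obtain ⟨m, rfl⟩ := Nat.exists_eq_add_of_le har
  clear h1
  induction m with
  | zero => exact le_refl _
  | succ m ih =>
    exact le_trans (ih (by omega) fun i hi => hx i (by omega))
      (Et_succ_left_le (a := 0) (n := a + n + m) (fun i hi => hx i (by omega)) v w)

theorem Et_row {x : ℕ → Matrix V V ℝ} {a n : ℕ} {ρ : ℝ} (hρ : 0 ≤ ρ)
    (hx : ∀ i, i < a + n → ∀ v w, 0 ≤ x i v w)
    (h1 : ∀ i, i < a + n → ∀ v, ∑ w, x i v w ≤ ρ) (v : V) :
    ∑ w, Et x a n v w ≤ (1 + ρ) ^ n := by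
  induction n generalizing v with
  | zero =>
    change ∑ w, (1 : Matrix V V ℝ) v w ≤ _
    simp [one_apply]
  | succ n ih =>
    change ∑ w, ((1 + x (a + n)) * Et x a n) v w ≤ _
    have h2 : ∀ w, ((1 + x (a + n)) * Et x a n) v w =
        Et x a n v w + ∑ u, x (a + n) v u * Et x a n u w := by
      intro w
      rw [add_mul, one_mul, Matrix.add_apply, mul_apply]
    simp_rw [h2]
    rw [sum_add_distrib, sum_comm]
    simp_rw [← mul_sum]
    have h3 : ∑ u, x (a + n) v u * ∑ w, Et x a n u w ≤ ∑ u, x (a + n) v u * (1 + ρ) ^ n :=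
      sum_le_sum fun u _ => mul_le_mul_of_nonneg_left
        (ih (fun i hi => hx i (by omega)) (fun i hi => h1 i (by omega)) u) (hx _ (by omega) _ _)
    rw [← sum_mul] at h3
    have h4 := mul_le_mul_of_nonneg_right (h1 (a + n) (by omega) v)
      (pow_nonneg (add_nonneg zero_le_one hρ) n)
    have h5 := ih (fun i hi => hx i (by omega)) (fun i hi => h1 i (by omega)) v
    rw [pow_succ]
    linarith

/-- Columns where all the matrices `x i` vanish. -/
theorem Et_col {x : ℕ → Matrix V V ℝ} {a n : ℕ} {z : V}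
    (hz : ∀ i, i < a + n → ∀ v, x i v z = 0) (v : V) :
    Et x a n v z = (1 : Matrix V V ℝ) v z := by
  induction n generalizing v with
  | zero => rfl
  | succ n ih =>
    change ((1 + x (a + n)) * Et x a n) v z = _
    rw [mul_apply]
    simp_rw [ih fun i hi => hz i (by omega)]
    rw [← mul_apply, mul_one, Matrix.add_apply, hz _ (by omega), add_zero]

/-- Flow through a product of matrices. -/
theorem flow_Et_le {x P' : ℕ → Matrix V V ℝ} {a n r : ℕ} (har : a + n ≤ r) {Z : Set V}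
    {h : V → ℝ} (h0 : ∀ v, 0 ≤ h v) {G : ℝ} (hG : 1 ≤ G)
    (hx : ∀ i, i < r → ∀ v w, 0 ≤ x i v w)
    (hxP : ∀ i, i < r → ∀ v w, x i v w ≤ P' i v w)
    (hz : ∀ i, i < r → ∀ v, ∀ z ∈ Z, x i v z = 0)
    (hF : ∀ z, z ∉ Z → ∑ v, h v * Et P' 0 r v z ≤ G * h z) (z : V) :
    ∑ v, h v * Et x a n v z ≤ G * h z := by
  by_cases hzZ : z ∈ Z
  · have h1 : ∀ v, Et x a n v z = (1 : Matrix V V ℝ) v z := fun v =>
      Et_col (fun i hi v => hz i (by omega) v z hzZ) v
    simp_rw [h1, one_apply, mul_ite, mul_one, mul_zero]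
    rw [sum_ite_eq' univ z h, if_pos (mem_univ z)]
    exact le_mul_of_one_le_left (h0 z) hG
  · refine le_trans (sum_le_sum fun v _ => mul_le_mul_of_nonneg_left ?_ (h0 v)) (hF z hzZ)
    refine le_trans (Et_le_full har hx v z) ?_
    exact Et_mono (fun i hi => hx i (by omega)) (fun i hi => hxP i (by omega)) v z

/-- The Schur test with row sums at most `ρ`. -/
theorem OpB.schur' {h : V → ℝ} (h0 : ∀ v, 0 ≤ h v) {A : Matrix V V ℝ} {ρ c : ℝ} (hρ : 0 < ρ)
    (hA : ∀ v x, 0 ≤ A v x) (h1 : ∀ v, ∑ x, A v x ≤ ρ)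
    (hc : ∀ x, ∑ v, h v * A v x ≤ c * h x) : OpB h A (√(ρ * c)) := by
  have h2 : OpB h (ρ⁻¹ • A) (√(c / ρ)) := by
    refine OpB.schur h0 (fun v x => ?_) (fun v => ?_) fun x => ?_
    · exact mul_nonneg (inv_nonneg.2 hρ.le) (hA v x)
    · have : ∑ x, (ρ⁻¹ • A) v x = ρ⁻¹ * ∑ x, A v x := by
        rw [mul_sum]
        rfl
      rw [this, inv_mul_le_iff₀ hρ, mul_one]
      exact h1 v
    · have : ∑ v, h v * (ρ⁻¹ • A) v x = ρ⁻¹ * ∑ v, h v * A v x := by
        rw [mul_sum]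
        refine sum_congr rfl fun v _ => ?_
        change h v * (ρ⁻¹ * A v x) = _
        ring
      rw [this, div_mul_eq_mul_div, inv_mul_le_iff₀ hρ, mul_div_assoc', mul_comm ρ (c * h x),
        mul_div_assoc, div_self hρ.ne', mul_one]
      exact hc x
  have h3 := h2.smul ρ
  rw [smul_smul, mul_inv_cancel₀ hρ.ne', one_smul, abs_of_pos hρ] at h3
  have h4 : ρ * √(c / ρ) = √(ρ * c) := by
    have h5 : ρ * c = ρ ^ 2 * (c / ρ) := by
      field_simp
    rw [h5, Real.sqrt_mul (sq_nonneg ρ), Real.sqrt_sq hρ.le]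
  rwa [h4] at h3

end Vale.Agent.P313.H136
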