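import Vale.Agent.P313.H136.Ker
import Vale.Agent.P313.H136.Prod

/-!
Bounds for the second moments, and the flow which is lost because of large trees.
-/

set_option linter.unusedSectionVars false

namespace Vale.Agent.P313.H136

open Finset Matrix

namespace Sys

open Classical

variable {V X Ec Sd : Type} {S : Sys V X Ec Sd} [AddCommGroup Ec]
  [Fintype X] [Fintype Ec] [Fintype Sd]
  {μ : ℝ} {Lam : ℕ} {Z : Set V} {a : ℕ}

variable (S) in
/-- The total weight of the states. -/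
noncomputable def tot [Fintype V] (μ : ℝ) : ℝ := ∑ v, S.hh μ v

variable (S) in
/-- The second moment of the flow with starting density `φ`. -/
noncomputable def Mo (μ : ℝ) (Lam : ℕ) (Z : Set V) (a : ℕ) (φ : V → ℝ) : ℝ :=
  S.nsqT μ a (S.Ts Lam Z a fun u => φ (S.stT a u))

variable (S) in
/-- The flow into `x` which is lost at the step to level `a + 1`. -/
noncomputable def hX (μ : ℝ) (Lam : ℕ) (Z : Set V) (a : ℕ) (x : V) : ℝ :=
  ∑ y ∈ univ.filter (fun y => S.stT (a + 1) y = x ∧ Lam ≤ S.W (a + 1) y),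
    S.wt μ (a + 1) * S.two Lam Z a (S.Ts Lam Z a fun _ => 1) y

variable [Fintype V] [Nonempty Sd]

/-- Bound for the second moments. -/
theorem moment_le (hμ : 0 ≤ μ) (hpos : ∀ v, 0 < S.hh μ v) {lam : ℝ} {r : ℕ}
    (hF1 : S.Mixes μ lam r) (hF2 : S.Hashes r) {G : ℝ} (hG : 1 ≤ G)
    (hfib : ∀ y : X, S.st y ∉ Z → ((univ.filter fun u => S.T0 u = y).card : ℝ) ≤ G + 1)
    (a : ℕ) (ha : a ≤ r) {φ : V → ℝ} (hφ : ∀ v, 0 ≤ φ v)
    (hflow : ∀ z, ∑ v, S.hh μ v * φ v * Et (fun i => S.P μ Lam Z i) 0 a v z ≤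
      G * S.hh μ z) :
    S.Mo μ Lam Z a φ ≤ ((1 + 4 * lam ^ 2 * Lam) * 5) ^ a * ((G + 1) * (G ^ 2 * S.tot μ)) := by
  have hG1 : 0 ≤ G + 1 := by linarith
  induction a generalizing φ with
  | zero =>
    rw [pow_zero, one_mul]
    have h1 : S.Mo μ Lam Z 0 φ ≤ (G + 1) * S.nsqT μ 0 (fun u => φ (S.stT 0 u)) := by
      refine nsqT_Ts_le hμ (fun y => ?_) _
      by_cases hy : S.st y ∈ Z
      · have h2 : (univ.filter fun u => S.U 0 u = y ∧ S.al Lam Z 0 u) = ∅ := by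
          refine filter_eq_empty_iff.2 fun u _ hu => ?_
          have h3 : S.st (S.T0 u) ∉ Z := hu.2.1
          have h4 : S.T0 u = y := hu.1
          rw [h4] at h3
          exact h3 hy
        rw [h2, card_empty, Nat.cast_zero]
        exact hG1
      · refine le_trans (Nat.cast_le.2 (card_le_card ?_)) (hfib y hy)
        exact fun u hu => mem_filter.2 ⟨mem_univ _, (mem_filter.1 hu).2.1⟩
    refine le_trans h1 (mul_le_mul_of_nonneg_left ?_ hG1)
    rw [nsq_lift hpos]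
    unfold nsq tot
    rw [mul_sum]
    refine sum_le_sum fun v _ => ?_
    have h3 := hflow v
    have h4 : ∑ w, S.hh μ w * φ w * Et (fun i => S.P μ Lam Z i) 0 0 w v = S.hh μ v * φ v := by
      change ∑ w, S.hh μ w * φ w * (1 : Matrix V V ℝ) w v = _
      simp [one_apply]
    rw [h4, mul_comm G] at h3
    have h5 : φ v ≤ G := le_of_mul_le_mul_left h3 (hpos v)
    rw [mul_comm (G ^ 2)]
    exact mul_le_mul_of_nonneg_left (pow_le_pow_left₀ (hφ v) h5 2) (hpos v).le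
  | succ a ih =>
    set φ' : V → ℝ := S.Jv μ a (S.Ts Lam Z a fun u => φ (S.stT a u)) with hφ'
    have hφ'0 : ∀ v, 0 ≤ φ' v := Jv_nonneg hμ (Ts_nonneg fun u => hφ _)
    have hPn : ∀ i, ∀ v w, 0 ≤ S.P μ Lam Z i v w := fun i v w => P_nonneg hμ v w
    -- split the flow
    have h1 : ∀ z, ∑ v, S.hh μ v * φ v * Et (fun i => S.P μ Lam Z i) 0 (a + 1) v z =
        ∑ v, S.hh μ v * φ v * Et (fun i => S.P μ Lam Z i) 0 a v z +
        ∑ v, S.hh μ v * φ' v * Et (fun i => S.P μ Lam Z i) 0 a v z := by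
      intro z
      have h2 : ∀ v, Et (fun i => S.P μ Lam Z i) 0 (a + 1) v z =
          Et (fun i => S.P μ Lam Z i) 0 a v z +
          ∑ w, S.P μ Lam Z a v w * Et (fun i => S.P μ Lam Z i) 0 a w z := by
        intro v
        change ((1 + S.P μ Lam Z (0 + a)) * Et (fun i => S.P μ Lam Z i) 0 a) v z = _
        rw [zero_add, add_mul, one_mul, Matrix.add_apply, mul_apply]
      simp_rw [h2, mul_add]
      rw [sum_add_distrib]
      congr 1
      simp_rw [mul_sum]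
      rw [sum_comm]
      refine sum_congr rfl fun w _ => ?_
      simp_rw [← mul_assoc]
      rw [← sum_mul, flow_eq hpos φ w]
    have h2 : ∀ z, 0 ≤ ∑ v, S.hh μ v * φ v * Et (fun i => S.P μ Lam Z i) 0 a v z := fun z =>
      sum_nonneg fun v _ => mul_nonneg (mul_nonneg (hpos v).le (hφ v))
        (Et_nonneg (fun i _ => hPn i) v z)
    have h3 : ∀ z, 0 ≤ ∑ v, S.hh μ v * φ' v * Et (fun i => S.P μ Lam Z i) 0 a v z := fun z =>
      sum_nonneg fun v _ => mul_nonneg (mul_nonneg (hpos v).le (hφ'0 v))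
        (Et_nonneg (fun i _ => hPn i) v z)
    have h4 := ih (by omega) hφ fun z => by
      have := hflow z
      rw [h1] at this
      linarith [h3 z]
    have h5 := ih (by omega) hφ'0 fun z => by
      have := hflow z
      rw [h1] at this
      linarith [h2 z]
    have h6 := moment_succ (Lam := Lam) (Z := Z) (a := a) hμ (by omega) hF1 hF2 hφ
    have h7 : S.Mo μ Lam Z (a + 1) φ ≤ (1 + 4 * lam ^ 2 * Lam) * S.Mo μ Lam Z a φ +
        4 * S.Mo μ Lam Z a φ' := h6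
    have hc : 1 ≤ 1 + 4 * lam ^ 2 * Lam := by
      have : 0 ≤ 4 * lam ^ 2 * Lam := by positivity
      linarith
    set B := ((1 + 4 * lam ^ 2 * Lam) * 5) ^ a * ((G + 1) * (G ^ 2 * S.tot μ)) with hB
    have hB0 : 0 ≤ B := by
      have : 0 ≤ S.tot μ := sum_nonneg fun v _ => (hpos v).le
      positivity
    have h8 : (1 + 4 * lam ^ 2 * Lam) * S.Mo μ Lam Z a φ ≤ (1 + 4 * lam ^ 2 * Lam) * B :=
      mul_le_mul_of_nonneg_left h4 (by linarith)
    have h9 : 4 * S.Mo μ Lam Z a φ' ≤ 4 * ((1 + 4 * lam ^ 2 * Lam) * B) := by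
      refine mul_le_mul_of_nonneg_left (le_trans h5 ?_) (by norm_num)
      exact le_mul_of_one_le_left hB0 hc
    calc S.Mo μ Lam Z (a + 1) φ ≤ (1 + 4 * lam ^ 2 * Lam) * B +
          4 * ((1 + 4 * lam ^ 2 * Lam) * B) := by linarith
      _ = _ := by
        rw [hB, pow_succ]
        ring

theorem wt_card (hpos : ∀ v, 0 < S.hh μ v) (a : ℕ) :
    S.wt μ a * (Fintype.card (Tok X (Ec × Sd) a) : ℝ) = S.tot μ := by
  unfold tot
  have h1 := sum_hh_Jv (a := a) hpos (fun _ => 1) (fun _ => 1)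
  have h2 : ∀ v, S.Jv μ a (fun _ => 1) v = 1 := fun v => Jv_lift hpos (fun _ => 1) v
  simp only [h2, mul_one] at h1
  rw [h1, sum_const, card_univ, nsmul_eq_mul, mul_comm]

/-- Few tokens have a large tree. -/
theorem large_le (hμ : 0 ≤ μ) (hpos : ∀ v, 0 < S.hh μ v) (hLam : 0 < Lam) (a : ℕ) :
    S.nsqT μ a (fun y => if Lam ≤ S.W a y then 1 else 0) ≤ 2 ^ a * S.tot μ / Lam := by
  have hL : (0 : ℝ) < Lam := Nat.cast_pos.2 hLam
  rw [nsqT_eq, le_div_iff₀ hL, ← wt_card hpos a]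
  have h1 : (∑ y : Tok X (Ec × Sd) a, (if Lam ≤ S.W a y then (1 : ℝ) else 0) ^ 2) * Lam ≤
      ∑ y : Tok X (Ec × Sd) a, (S.W a y : ℝ) := by
    rw [sum_mul]
    refine sum_le_sum fun y _ => ?_
    split_ifs with h
    · rw [one_pow, one_mul]
      exact Nat.cast_le.2 h
    · rw [zero_pow two_ne_zero, zero_mul]
      exact Nat.cast_nonneg _
  have h2 : ∑ y : Tok X (Ec × Sd) a, (S.W a y : ℝ) =
      2 ^ a * (Fintype.card (Tok X (Ec × Sd) a) : ℝ) := by
    have := S.sum_W a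
    rw [← Nat.cast_sum, this]
    push_cast
    ring
  rw [h2] at h1
  calc S.wt μ a * (∑ y : Tok X (Ec × Sd) a, (if Lam ≤ S.W a y then (1 : ℝ) else 0) ^ 2) * Lam =
        S.wt μ a * ((∑ y : Tok X (Ec × Sd) a,
          (if Lam ≤ S.W a y then (1 : ℝ) else 0) ^ 2) * Lam) := by ring
    _ ≤ S.wt μ a * (2 ^ a * (Fintype.card (Tok X (Ec × Sd) a) : ℝ)) :=
        mul_le_mul_of_nonneg_left h1 (wt_nonneg hμ)
    _ = _ := by ring

/-- The total loss of one level. -/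
theorem sum_hX_le (hμ : 0 ≤ μ) (hpos : ∀ v, 0 < S.hh μ v) {lam : ℝ} {r : ℕ}
    (hF1 : S.Mixes μ lam r) (hF2 : S.Hashes r) {G : ℝ} (hG : 1 ≤ G) (hLam : 0 < Lam)
    (hfib : ∀ y : X, S.st y ∉ Z → ((univ.filter fun u => S.T0 u = y).card : ℝ) ≤ G + 1)
    (a : ℕ) (ha : a < r)
    (hflow : ∀ z, ∑ v, S.hh μ v * Et (fun i => S.P μ Lam Z i) 0 (a + 1) v z ≤
      G * S.hh μ z) :
    ∑ x, S.hX μ Lam Z a x ≤
      √(((1 + 4 * lam ^ 2 * Lam) * 5) ^ (a + 1) * ((G + 1) * G ^ 2) * (2 ^ (a + 1) / Lam)) *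
        S.tot μ := by
  have hPn : ∀ i, ∀ v w, 0 ≤ S.P μ Lam Z i v w := fun i v w => P_nonneg hμ v w
  have htot : 0 ≤ S.tot μ := sum_nonneg fun v _ => (hpos v).le
  have hL : (0 : ℝ) < Lam := Nat.cast_pos.2 hLam
  set φ' : V → ℝ := S.Jv μ a (S.Ts Lam Z a fun _ => 1) with hφ'
  have hφ'0 : ∀ v, 0 ≤ φ' v := Jv_nonneg hμ (Ts_nonneg fun u => zero_le_one)
  -- the two moments
  have h1 : ∀ z, ∑ v, S.hh μ v * Et (fun i => S.P μ Lam Z i) 0 (a + 1) v z =
      ∑ v, S.hh μ v * 1 * Et (fun i => S.P μ Lam Z i) 0 a v z +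
      ∑ v, S.hh μ v * φ' v * Et (fun i => S.P μ Lam Z i) 0 a v z := by
    intro z
    have h2 : ∀ v, Et (fun i => S.P μ Lam Z i) 0 (a + 1) v z =
        Et (fun i => S.P μ Lam Z i) 0 a v z +
        ∑ w, S.P μ Lam Z a v w * Et (fun i => S.P μ Lam Z i) 0 a w z := by
      intro v
      change ((1 + S.P μ Lam Z (0 + a)) * Et (fun i => S.P μ Lam Z i) 0 a) v z = _
      rw [zero_add, add_mul, one_mul, Matrix.add_apply, mul_apply]
    simp_rw [h2, mul_add]
    rw [sum_add_distrib]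
    congr 1
    · simp_rw [mul_one]
    · simp_rw [mul_sum]
      rw [sum_comm]
      refine sum_congr rfl fun w _ => ?_
      simp_rw [← mul_assoc]
      rw [← sum_mul]
      have h3 := flow_eq (Lam := Lam) (Z := Z) (a := a) hpos (fun _ => 1) w
      simp_rw [mul_one] at h3
      rw [h3]
  have h2 : ∀ z, 0 ≤ ∑ v, S.hh μ v * 1 * Et (fun i => S.P μ Lam Z i) 0 a v z := fun z =>
    sum_nonneg fun v _ => mul_nonneg (mul_nonneg (hpos v).le zero_le_one)
      (Et_nonneg (fun i _ => hPn i) v z)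
  have h3 : ∀ z, 0 ≤ ∑ v, S.hh μ v * φ' v * Et (fun i => S.P μ Lam Z i) 0 a v z := fun z =>
    sum_nonneg fun v _ => mul_nonneg (mul_nonneg (hpos v).le (hφ'0 v))
      (Et_nonneg (fun i _ => hPn i) v z)
  have h4 := moment_le hμ hpos hF1 hF2 hG hfib a ha.le (φ := fun _ => 1) (fun _ => zero_le_one)
    fun z => by
      have := hflow z
      rw [h1] at this
      linarith [h3 z]
  have h5 := moment_le hμ hpos hF1 hF2 hG hfib a ha.le (φ := φ') hφ'0 fun z => by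
      have := hflow z
      rw [h1] at this
      linarith [h2 z]
  have h6 := two_moment (Lam := Lam) (Z := Z) (a := a) hμ ha hF1 hF2 (φ := fun _ => 1)
    fun _ => zero_le_one
  have h7 : S.nsqT μ (a + 1) (S.two Lam Z a (S.Ts Lam Z a fun _ => 1)) ≤
      (1 + 4 * lam ^ 2 * Lam) * S.Mo μ Lam Z a (fun _ => 1) + 4 * S.Mo μ Lam Z a φ' := h6
  have hc : 1 ≤ 1 + 4 * lam ^ 2 * Lam := by
    have : 0 ≤ 4 * lam ^ 2 * Lam := by positivity
    linarith
  set B := ((1 + 4 * lam ^ 2 * Lam) * 5) ^ a * ((G + 1) * (G ^ 2 * S.tot μ)) with hB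
  have hB0 : 0 ≤ B := by positivity
  have h8 : S.nsqT μ (a + 1) (S.two Lam Z a (S.Ts Lam Z a fun _ => 1)) ≤
      ((1 + 4 * lam ^ 2 * Lam) * 5) ^ (a + 1) * ((G + 1) * G ^ 2) * S.tot μ := by
    have h9 : (1 + 4 * lam ^ 2 * Lam) * S.Mo μ Lam Z a (fun _ => 1) ≤
        (1 + 4 * lam ^ 2 * Lam) * B := mul_le_mul_of_nonneg_left h4 (by linarith)
    have h10 : 4 * S.Mo μ Lam Z a φ' ≤ 4 * ((1 + 4 * lam ^ 2 * Lam) * B) := by
      refine mul_le_mul_of_nonneg_left (le_trans h5 ?_) (by norm_num)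
      exact le_mul_of_one_le_left hB0 hc
    calc _ ≤ (1 + 4 * lam ^ 2 * Lam) * B + 4 * ((1 + 4 * lam ^ 2 * Lam) * B) := by linarith
      _ = _ := by
        rw [hB, pow_succ]
        ring
  -- Cauchy-Schwarz
  have h9 : ∑ x, S.hX μ Lam Z a x =
      ∑ y, S.wt μ (a + 1) * (S.two Lam Z a (S.Ts Lam Z a fun _ => 1) y *
        if Lam ≤ S.W (a + 1) y then 1 else 0) := by
    rw [sum_by_state (S := S)]
    refine sum_congr rfl fun x _ => ?_
    unfold hX
    rw [← filter_filter, sum_filter]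
    refine sum_congr rfl fun y _ => ?_
    split_ifs <;> simp
  rw [h9]
  refine le_trans (ip_le (fun _ => wt_nonneg hμ) _ _) ?_
  have h10 : nrm (fun _ => S.wt μ (a + 1)) (S.two Lam Z a (S.Ts Lam Z a fun _ => 1)) ≤
      √(((1 + 4 * lam ^ 2 * Lam) * 5) ^ (a + 1) * ((G + 1) * G ^ 2) * S.tot μ) :=
    Real.sqrt_le_sqrt h8
  have h11 : nrm (fun _ => S.wt μ (a + 1)) (fun y => if Lam ≤ S.W (a + 1) y then 1 else 0) ≤
      √(2 ^ (a + 1) * S.tot μ / Lam) := Real.sqrt_le_sqrt (large_le hμ hpos hLam (a + 1))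
  refine le_trans (mul_le_mul h10 h11 (nrm_nonneg _ _) (Real.sqrt_nonneg _)) (le_of_eq ?_)
  rw [← Real.sqrt_mul (by positivity)]
  have h12 : ((1 + 4 * lam ^ 2 * Lam) * 5) ^ (a + 1) * ((G + 1) * G ^ 2) * S.tot μ *
      (2 ^ (a + 1) * S.tot μ / Lam) =
      ((1 + 4 * lam ^ 2 * Lam) * 5) ^ (a + 1) * ((G + 1) * G ^ 2) * (2 ^ (a + 1) / Lam) *
        S.tot μ ^ 2 := by ring
  rw [h12, Real.sqrt_mul (by positivity), Real.sqrt_sq htot]

end Sys

end Vale.Agent.P313.H136
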