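import Vale.Agent.P313.H136.Lev
import Vale.Agent.P313.H136.Hash
import Mathlib.Algebra.Order.Chebyshev

/-!
The operators of the pseudo-random walk and the second moment inequality.
-/

set_option linter.unusedSectionVars false

namespace Vale.Agent.P313.H136

open Finset Matrix

namespace Sys

open Classical

variable {V X Ec Sd : Type} (S : Sys V X Ec Sd) [AddCommGroup Ec]
  [Fintype X] [Fintype Ec] [Fintype Sd]

/-- The weight of a token of level `a`. -/
noncomputable def wt (_S : Sys V X Ec Sd) (μ : ℝ) (a : ℕ) : ℝ :=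
  μ / (Fintype.card (Ec × Sd) : ℝ) ^ a

/-- The weight of a state. -/
noncomputable def hh (μ : ℝ) (v : V) : ℝ := μ * ((univ.filter fun u => S.st u = v).card : ℝ)

/-- Square sums over the tokens of level `a`. -/
noncomputable def nsqT (μ : ℝ) (a : ℕ) (f : Tok X (Ec × Sd) a → ℝ) : ℝ :=
  nsq (fun _ => S.wt μ a) f

/-- The walk as an operator on functions. -/
noncomputable def T (Lam : ℕ) (Z : Set V) (a : ℕ) (f : Tok X (Ec × Sd) a → ℝ) :
    Tok X (Ec × Sd) a → ℝ := fun u => if S.al Lam Z a u then f (S.U a u) else 0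

/-- The adjoint of the walk. -/
noncomputable def Ts (Lam : ℕ) (Z : Set V) (a : ℕ) (g : Tok X (Ec × Sd) a → ℝ) :
    Tok X (Ec × Sd) a → ℝ :=
  fun y => ∑ u ∈ univ.filter (fun u => S.U a u = y ∧ S.al Lam Z a u), g u

/-- Averaging over the shifts. -/
noncomputable def Av (a : ℕ) (m : Tok X (Ec × Sd) a → ℝ) : Tok X (Ec × Sd) a → ℝ :=
  fun u => (∑ e, m ((S.sh a e).symm u)) / Fintype.card Ec

/-- Averaging over the tokens of a state. -/
noncomputable def Jv (μ : ℝ) (a : ℕ) (m : Tok X (Ec × Sd) a → ℝ) : V → ℝ :=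
  fun v => (∑ u ∈ univ.filter (fun u => S.stT a u = v), S.wt μ a * m u) / S.hh μ v

/-- The first half of the adjoint of two walks with mixing in between. -/
noncomputable def two (Lam : ℕ) (Z : Set V) (a : ℕ) (m : Tok X (Ec × Sd) a → ℝ) :
    Tok X (Ec × Sd) (a + 1) → ℝ :=
  fun y => ∑ u' ∈ univ.filter (fun u' => S.U a u' = y.1 ∧ S.al Lam Z a u'),
    m (S.Ri a (u', y.2)).1

variable {S} {μ : ℝ} {Lam : ℕ} {Z : Set V} {a : ℕ}

theorem wt_nonneg (hμ : 0 ≤ μ) : 0 ≤ S.wt μ a := by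
  unfold wt
  positivity

theorem nsqT_eq (f : Tok X (Ec × Sd) a → ℝ) : S.nsqT μ a f = S.wt μ a * ∑ u, f u ^ 2 := by
  unfold nsqT nsq
  rw [mul_sum]

theorem nsqT_nonneg (hμ : 0 ≤ μ) (f : Tok X (Ec × Sd) a → ℝ) : 0 ≤ S.nsqT μ a f :=
  nsq_nonneg (fun _ => wt_nonneg hμ) f

theorem wt_succ [Nonempty Sd] :
    S.wt μ (a + 1) * (Fintype.card Sd * Fintype.card Ec) = S.wt μ a := by
  unfold wt
  have h1 : (Fintype.card Ec : ℝ) ≠ 0 := Nat.cast_ne_zero.2 Fintype.card_ne_zero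
  have h2 : (Fintype.card Sd : ℝ) ≠ 0 := Nat.cast_ne_zero.2 Fintype.card_ne_zero
  rw [Fintype.card_prod, Nat.cast_mul, pow_succ]
  field_simp

theorem adj (g f : Tok X (Ec × Sd) a → ℝ) :
    ∑ y, S.Ts Lam Z a g y * f y = ∑ u, g u * S.T Lam Z a f u := by
  unfold Ts T
  simp_rw [sum_filter, sum_mul]
  rw [sum_comm]
  refine sum_congr rfl fun u _ => ?_
  rw [sum_eq_single (S.U a u)]
  · by_cases h : S.al Lam Z a u
    · simp [h]
    · simp [h]
  · intro y _ hy
    simp [Ne.symm hy]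
  · simp

theorem Ts_nonneg {g : Tok X (Ec × Sd) a → ℝ} (hg : ∀ u, 0 ≤ g u) (y : Tok X (Ec × Sd) a) :
    0 ≤ S.Ts Lam Z a g y := sum_nonneg fun u _ => hg u

theorem two_nonneg {m : Tok X (Ec × Sd) a → ℝ} (hm : ∀ u, 0 ≤ m u)
    (y : Tok X (Ec × Sd) (a + 1)) : 0 ≤ S.two Lam Z a m y := sum_nonneg fun _ _ => hm _

/-- Alive fibres with at most `C` elements: bound for the walk. -/
theorem nsqT_T_le (hμ : 0 ≤ μ) {C : ℝ}
    (hC : ∀ y, ((univ.filter fun u => S.U a u = y ∧ S.al Lam Z a u).card : ℝ) ≤ C)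
    (f : Tok X (Ec × Sd) a → ℝ) : S.nsqT μ a (S.T Lam Z a f) ≤ C * S.nsqT μ a f := by
  rw [nsqT_eq, nsqT_eq, ← mul_assoc, mul_comm C, mul_assoc]
  refine mul_le_mul_of_nonneg_left ?_ (wt_nonneg hμ)
  have h1 : ∑ u, S.T Lam Z a f u ^ 2 =
      ∑ y, ((univ.filter fun u => S.U a u = y ∧ S.al Lam Z a u).card : ℝ) * f y ^ 2 := by
    have h2 : ∀ u, S.T Lam Z a f u ^ 2 = if S.al Lam Z a u then f (S.U a u) ^ 2 else 0 := by
      intro u
      unfold T
      split_ifs <;> simp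
    simp_rw [h2]
    rw [← sum_filter, ← sum_fiberwise (univ.filter fun u => S.al Lam Z a u) (S.U a)]
    refine sum_congr rfl fun y _ => ?_
    rw [filter_filter, ← nsmul_eq_mul, ← sum_const]
    refine sum_congr ?_ fun u hu => ?_
    · ext u
      simp only [mem_filter, mem_univ, true_and]
      exact and_comm
    · rw [(mem_filter.1 hu).2.1]
  rw [h1, mul_sum]
  exact sum_le_sum fun y _ => mul_le_mul_of_nonneg_right (hC y) (sq_nonneg _)

/-- Alive fibres with at most `C` elements: bound for the adjoint. -/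
theorem nsqT_Ts_le (hμ : 0 ≤ μ) {C : ℝ}
    (hC : ∀ y, ((univ.filter fun u => S.U a u = y ∧ S.al Lam Z a u).card : ℝ) ≤ C)
    (g : Tok X (Ec × Sd) a → ℝ) : S.nsqT μ a (S.Ts Lam Z a g) ≤ C * S.nsqT μ a g := by
  rw [nsqT_eq, nsqT_eq, ← mul_assoc, mul_comm C, mul_assoc]
  refine mul_le_mul_of_nonneg_left ?_ (wt_nonneg hμ)
  have h1 : ∀ y, S.Ts Lam Z a g y ^ 2 ≤
      C * ∑ u ∈ univ.filter (fun u => S.U a u = y ∧ S.al Lam Z a u), g u ^ 2 := by
    intro y
    refine le_trans sq_sum_le_card_mul_sum_sq ?_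
    exact mul_le_mul_of_nonneg_right (hC y) (sum_nonneg fun u _ => sq_nonneg _)
  refine le_trans (sum_le_sum fun y _ => h1 y) ?_
  rw [← mul_sum]
  have hC0 : 0 ≤ C ∨ IsEmpty (Tok X (Ec × Sd) a) := by
    by_cases he : IsEmpty (Tok X (Ec × Sd) a)
    · exact Or.inr he
    · obtain ⟨y⟩ := not_isEmpty_iff.1 he
      exact Or.inl (le_trans (Nat.cast_nonneg _) (hC y))
  rcases hC0 with hC0 | he
  · refine mul_le_mul_of_nonneg_left ?_ hC0
    have h2 : ∑ y, ∑ u ∈ univ.filter (fun u => S.U a u = y ∧ S.al Lam Z a u), g u ^ 2 =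
        ∑ u ∈ univ.filter (fun u => S.al Lam Z a u), g u ^ 2 := by
      rw [← sum_fiberwise (univ.filter fun u => S.al Lam Z a u) (S.U a)]
      refine sum_congr rfl fun y _ => ?_
      rw [filter_filter]
      refine sum_congr ?_ fun _ _ => rfl
      ext u
      simp only [mem_filter, mem_univ, true_and]
      exact and_comm
    rw [h2]
    exact sum_le_sum_of_subset_of_nonneg (filter_subset _ _) fun u _ _ => sq_nonneg _
  · simp

/-- Alive fibres have at most `Lam` elements. -/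
theorem card_al_le (y : Tok X (Ec × Sd) a) :
    ((univ.filter fun u => S.U a u = y ∧ S.al Lam Z a u).card : ℝ) ≤ Lam := by
  by_cases h : S.W a y < Lam
  · refine Nat.cast_le.2 (le_trans (card_le_card ?_) (le_trans (S.card_fib a y) h.le))
    exact fun u hu => mem_filter.2 ⟨mem_univ _, (mem_filter.1 hu).2.1⟩
  · have h1 : (univ.filter fun u => S.U a u = y ∧ S.al Lam Z a u) = ∅ := by
      refine filter_eq_empty_iff.2 fun u _ hu => h ?_
      rw [← hu.1]
      exact hu.2.2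
    rw [h1, card_empty, Nat.cast_zero]
    exact Nat.cast_nonneg _

/-- The adjoint at level `a + 1` of a function which does not depend on the last label. -/
theorem Ts_succ (G : Tok X (Ec × Sd) a → ℝ) (y : Tok X (Ec × Sd) (a + 1)) :
    S.Ts Lam Z (a + 1) (fun p => G p.1) y =
      if S.W (a + 1) y < Lam then S.two Lam Z a (S.Ts Lam Z a G) y else 0 := by
  by_cases h : S.W (a + 1) y < Lam
  · rw [if_pos h]
    unfold Ts two
    have h1 : ∑ u' ∈ univ.filter (fun u' => S.U a u' = y.1 ∧ S.al Lam Z a u'),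
        ∑ u ∈ univ.filter (fun u => S.U a u = (S.Ri a (u', y.2)).1 ∧ S.al Lam Z a u), G u =
        ∑ q ∈ (univ : Finset (Tok X (Ec × Sd) a × Tok X (Ec × Sd) a)).filter (fun q =>
          (S.U a q.1 = y.1 ∧ S.al Lam Z a q.1) ∧
            (S.U a q.2 = (S.Ri a (q.1, y.2)).1 ∧ S.al Lam Z a q.2)), G q.2 := by
      rw [sum_filter, sum_filter, Fintype.sum_prod_type]
      refine sum_congr rfl fun u' _ => ?_
      by_cases h2 : S.U a u' = y.1 ∧ S.al Lam Z a u'
      · rw [if_pos h2, sum_filter]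
        refine sum_congr rfl fun u _ => ?_
        simp only [h2, true_and]
      · rw [if_neg h2]
        symm
        refine sum_eq_zero fun u _ => if_neg fun h3 => h2 h3.1
    rw [h1]
    refine sum_nbij' (fun p => ((S.R a (S.U a p.1, p.2)).1, p.1))
      (fun q => ((q.2, (S.Ri a (q.1, y.2)).2) : Tok X (Ec × Sd) a × (Ec × Sd))) ?_ ?_ ?_ ?_ ?_
    · rintro ⟨u, l⟩ hp
      obtain ⟨h2, h3⟩ := (mem_filter.1 hp).2
      rw [S.al_succ_iff] at h3
      have h4 : (S.U a (S.R a (S.U a u, l)).1, (S.R a (S.U a u, l)).2) = y := h2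
      refine mem_filter.2 ⟨mem_univ _, ⟨?_, h3.1.2⟩, ?_, h3.1.1⟩
      · rw [← h4]
      · rw [← h4]
        change S.U a u = (S.Ri a (S.R a (S.U a u, l))).1
        rw [S.Ri_R]
    · rintro ⟨u', u⟩ hq
      obtain ⟨⟨h2, h3⟩, h4, h5⟩ := (mem_filter.1 hq).2
      have h6 : S.R a (S.U a u, (S.Ri a (u', y.2)).2) = (u', y.2) := by
        have h7 : (S.U a u, (S.Ri a (u', y.2)).2) = S.Ri a (u', y.2) := by
          rw [Prod.ext_iff]
          exact ⟨h4, rfl⟩
        rw [h7, S.R_Ri]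
      have h8 : S.U (a + 1) (u, (S.Ri a (u', y.2)).2) = y := by
        change (S.U a (S.R a (S.U a u, (S.Ri a (u', y.2)).2)).1,
          (S.R a (S.U a u, (S.Ri a (u', y.2)).2)).2) = y
        rw [h6]
        exact Prod.ext h2 rfl
      refine mem_filter.2 ⟨mem_univ _, h8, ?_⟩
      rw [S.al_succ_iff]
      refine ⟨⟨h5, ?_⟩, ?_⟩
      · change S.al Lam Z a (S.R a (S.U a u, (S.Ri a (u', y.2)).2)).1
        rw [h6]
        exact h3
      · rw [h8]
        exact h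
    · rintro ⟨u, l⟩ hp
      obtain ⟨h2, h3⟩ := (mem_filter.1 hp).2
      have h4 : (S.U a (S.R a (S.U a u, l)).1, (S.R a (S.U a u, l)).2) = y := h2
      have h5 : y.2 = (S.R a (S.U a u, l)).2 := by rw [← h4]
      change (u, (S.Ri a ((S.R a (S.U a u, l)).1, y.2)).2) = (u, l)
      rw [h5]
      change (u, (S.Ri a (S.R a (S.U a u, l))).2) = (u, l)
      rw [S.Ri_R]
    · rintro ⟨u', u⟩ hq
      obtain ⟨⟨h2, h3⟩, h4, h5⟩ := (mem_filter.1 hq).2
      have h7 : (S.U a u, (S.Ri a (u', y.2)).2) = S.Ri a (u', y.2) := by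
        rw [Prod.ext_iff]
        exact ⟨h4, rfl⟩
      change ((S.R a (S.U a u, (S.Ri a (u', y.2)).2)).1, u) = (u', u)
      rw [h7, S.R_Ri]
    · rintro ⟨u, l⟩ _
      rfl
  · rw [if_neg h]
    unfold Ts
    refine sum_eq_zero fun p hp => ?_
    exfalso
    obtain ⟨h1, h2⟩ := (mem_filter.1 hp).2
    rw [← h1] at h
    exact h h2.2

theorem sum_tok_succ' (f : Tok X (Ec × Sd) (a + 1) → ℝ) :
    ∑ p, f p = ∑ u : Tok X (Ec × Sd) a, ∑ e : Ec, ∑ s : Sd, f (u, (e, s)) := by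
  rw [sum_tok_succ]
  exact sum_congr rfl fun u _ => Fintype.sum_prod_type _

theorem sum_Av_sq_le (m : Tok X (Ec × Sd) a → ℝ) :
    ∑ u, ∑ e, m ((S.sh a e).symm u) ^ 2 = Fintype.card Ec * ∑ u, m u ^ 2 := by
  rw [sum_comm]
  have h1 : ∀ e, ∑ u, m ((S.sh a e).symm u) ^ 2 = ∑ u, m u ^ 2 := fun e =>
    Equiv.sum_comp (S.sh a e).symm fun u => m u ^ 2
  simp_rw [h1]
  rw [sum_const, card_univ, nsmul_eq_mul]

/-- The second moment inequality. -/
theorem second_moment [Nonempty Sd] (hμ : 0 ≤ μ)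
    (hF2 : ∀ u1 u2 : Tok X (Ec × Sd) a, u1 ≠ u2 → ∀ κ,
      ((univ.filter fun s => S.hs a s u1 - S.hs a s u2 = κ).card : ℝ) * Fintype.card Ec ≤
        2 * Fintype.card Sd)
    {m : Tok X (Ec × Sd) a → ℝ} (hm : ∀ u, 0 ≤ m u) :
    S.nsqT μ (a + 1) (S.two Lam Z a m) ≤
      S.nsqT μ a m + 2 * S.nsqT μ a (S.Ts Lam Z a (S.Av a m)) := by
  have hE : (0 : ℝ) < Fintype.card Ec := Nat.cast_pos.2 Fintype.card_pos
  have hS : (0 : ℝ) < Fintype.card Sd := Nat.cast_pos.2 Fintype.card_pos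
  set C : ℝ := 2 * Fintype.card Sd / Fintype.card Ec with hC
  have hC0 : 0 ≤ C := by positivity
  have hF : ∀ u1 u2 : Tok X (Ec × Sd) a, u1 ≠ u2 → ∀ κ,
      ((univ.filter fun s => S.hs a s u1 - S.hs a s u2 = κ).card : ℝ) ≤ C := by
    intro u1 u2 h κ
    rw [hC, le_div_iff₀ hE]
    exact hF2 u1 u2 h κ
  rw [nsqT_eq, sum_tok_succ']
  have h1 : ∀ y0 : Tok X (Ec × Sd) a, ∑ e : Ec, ∑ s : Sd, S.two Lam Z a m (y0, (e, s)) ^ 2 ≤
      Fintype.card Sd * ∑ u ∈ univ.filter (fun u => S.U a u = y0 ∧ S.al Lam Z a u),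
        ∑ e, m ((S.sh a e).symm u) ^ 2 +
      C * (∑ u ∈ univ.filter (fun u => S.U a u = y0 ∧ S.al Lam Z a u),
        ∑ e, m ((S.sh a e).symm u)) ^ 2 := fun y0 =>
    fiber_moment (fun s u => S.hs a s u)
      (univ.filter (fun u => S.U a u = y0 ∧ S.al Lam Z a u))
      (fun u e => m ((S.sh a e).symm u)) (fun u e => hm _) hC0 hF
  have h2 : ∑ y0 : Tok X (Ec × Sd) a,
      ∑ u ∈ univ.filter (fun u => S.U a u = y0 ∧ S.al Lam Z a u),
        ∑ e, m ((S.sh a e).symm u) ^ 2 ≤ Fintype.card Ec * ∑ u, m u ^ 2 := by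
    rw [← sum_Av_sq_le (S := S)]
    have h3 : ∑ y0 : Tok X (Ec × Sd) a,
        ∑ u ∈ univ.filter (fun u => S.U a u = y0 ∧ S.al Lam Z a u),
          ∑ e, m ((S.sh a e).symm u) ^ 2 =
        ∑ u ∈ univ.filter (fun u => S.al Lam Z a u), ∑ e, m ((S.sh a e).symm u) ^ 2 := by
      rw [← sum_fiberwise (univ.filter fun u => S.al Lam Z a u) (S.U a)]
      refine sum_congr rfl fun y _ => ?_
      rw [filter_filter]
      refine sum_congr ?_ fun _ _ => rfl
      ext u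
      simp only [mem_filter, mem_univ, true_and]
      exact and_comm
    rw [h3]
    exact sum_le_sum_of_subset_of_nonneg (filter_subset _ _) fun u _ _ =>
      sum_nonneg fun e _ => sq_nonneg _
  have h4 : ∀ y0 : Tok X (Ec × Sd) a,
      ∑ u ∈ univ.filter (fun u => S.U a u = y0 ∧ S.al Lam Z a u),
        ∑ e, m ((S.sh a e).symm u) = Fintype.card Ec * S.Ts Lam Z a (S.Av a m) y0 := by
    intro y0
    unfold Ts Av
    rw [mul_sum]
    refine sum_congr rfl fun u _ => ?_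
    field_simp
  calc S.wt μ (a + 1) * ∑ y0 : Tok X (Ec × Sd) a, ∑ e : Ec, ∑ s : Sd,
        S.two Lam Z a m (y0, (e, s)) ^ 2
      ≤ S.wt μ (a + 1) * ∑ y0 : Tok X (Ec × Sd) a, (Fintype.card Sd *
        ∑ u ∈ univ.filter (fun u => S.U a u = y0 ∧ S.al Lam Z a u),
          ∑ e, m ((S.sh a e).symm u) ^ 2 +
        C * (∑ u ∈ univ.filter (fun u => S.U a u = y0 ∧ S.al Lam Z a u),
          ∑ e, m ((S.sh a e).symm u)) ^ 2) :=
        mul_le_mul_of_nonneg_left (sum_le_sum fun y0 _ => h1 y0) (wt_nonneg hμ)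
    _ = S.wt μ (a + 1) * (Fintype.card Sd * ∑ y0 : Tok X (Ec × Sd) a,
        ∑ u ∈ univ.filter (fun u => S.U a u = y0 ∧ S.al Lam Z a u),
          ∑ e, m ((S.sh a e).symm u) ^ 2 +
        ∑ y0 : Tok X (Ec × Sd) a,
          C * (Fintype.card Ec * S.Ts Lam Z a (S.Av a m) y0) ^ 2) := by
        rw [sum_add_distrib, ← mul_sum]
        simp_rw [h4]
    _ ≤ S.wt μ (a + 1) * (Fintype.card Sd * (Fintype.card Ec * ∑ u, m u ^ 2) +
        ∑ y0 : Tok X (Ec × Sd) a,
          C * (Fintype.card Ec * S.Ts Lam Z a (S.Av a m) y0) ^ 2) := by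
        refine mul_le_mul_of_nonneg_left ?_ (wt_nonneg hμ)
        exact add_le_add_left (mul_le_mul_of_nonneg_left h2 hS.le) _
    _ = S.wt μ (a + 1) * (Fintype.card Sd * Fintype.card Ec) * (∑ u, m u ^ 2 +
        2 * ∑ y0 : Tok X (Ec × Sd) a, S.Ts Lam Z a (S.Av a m) y0 ^ 2) := by
        have h5 : ∑ y0 : Tok X (Ec × Sd) a,
            C * (Fintype.card Ec * S.Ts Lam Z a (S.Av a m) y0) ^ 2 =
            Fintype.card Sd * Fintype.card Ec * (2 *
              ∑ y0 : Tok X (Ec × Sd) a, S.Ts Lam Z a (S.Av a m) y0 ^ 2) := by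
          rw [mul_sum, mul_sum]
          refine sum_congr rfl fun y0 _ => ?_
          rw [hC]
          field_simp
        rw [h5]
        ring
    _ = _ := by
        rw [wt_succ, nsqT_eq, nsqT_eq]
        ring

end Sys

end Vale.Agent.P313.H136
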