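import Vale.Agent.P313.H136.GoodI
import Vale.Agent.P313.H136.Bridge
import Vale.Agent.P313.H899.Hop
import Vale.Agent.P313.BP.Inst

/-!
The kernels and the loss of the concrete tokens have the properties which the composition of the
stages needs.
-/

namespace Vale.Agent.P313.H136

open Finset Vale.Agent.P313.BP Vale.Agent.P313.H974

/-- Numerical conditions on the parameters. -/
structure SemNum (p : Par2) : Prop where
  prime : p.q.Prime
  r1 : 1 ≤ p.r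
  q16 : 16 ^ (p.r + 1) ≤ p.q
  lam : p.Lam = p.q ^ 34
  b_le : p.b ≤ p.cmax
  hcm : 2 * p.n < p.q ^ (p.cmax + 1 - p.b)
  mix : (p.cmax + p.nd + 310 * p.r) ^ 31 ≤ p.q ^ 8
  hash : 124 * (p.cmax + p.nd + 310 * p.r) ^ 2 ≤ p.q
  n_le : p.n ≤ p.q ^ p.nd
  rk_le : p.rk ≤ p.r
  q6 : p.q ^ 6 ≤ 2 ^ 2 ^ (p.r - p.rk)

theorem hX_nonneg {V X Ec Sd : Type} {S : Sys V X Ec Sd} [AddCommGroup Ec] [Fintype X]
    [Fintype Ec] [Fintype Sd] {μ : ℝ} (hμ : 0 ≤ μ) (Lam : ℕ) (Z : Set V) (a : ℕ) (x : V) :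
    0 ≤ S.hX μ Lam Z a x :=
  sum_nonneg fun y _ => mul_nonneg (Sys.wt_nonneg hμ)
    (Sys.two_nonneg (fun u => Sys.Ts_nonneg (fun _ => zero_le_one) u) y)

/-- `(1 - 1 / m) ^ m ≤ 1 / 2`. -/
theorem one_sub_pow_le {m : ℕ} (hm : 1 ≤ m) : (1 - 1 / (m : ℝ)) ^ m ≤ 1 / 2 := by
  have hm0 : (0 : ℝ) < m := by exact_mod_cast hm
  have h1 : (2 : ℝ) ≤ (1 + 1 / (m : ℝ)) ^ m := by
    have h := one_add_mul_le_pow (a := 1 / (m : ℝ)) (by
      have : (0 : ℝ) ≤ 1 / m := by positivity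
      linarith) m
    have h2 : (m : ℝ) * (1 / m) = 1 := mul_one_div_cancel hm0.ne'
    linarith
  have h2 : (0 : ℝ) ≤ 1 - 1 / m := by
    rw [sub_nonneg, div_le_one hm0]
    exact_mod_cast hm
  have h3 : (1 - 1 / (m : ℝ)) ^ m * (1 + 1 / (m : ℝ)) ^ m ≤ 1 := by
    rw [← mul_pow]
    refine pow_le_one₀ (mul_nonneg h2 (by positivity)) ?_
    have : (0 : ℝ) ≤ 1 / m * (1 / m) := by positivity
    nlinarith
  have h4 : (0 : ℝ) ≤ (1 - 1 / (m : ℝ)) ^ m := pow_nonneg h2 _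
  nlinarith

theorem SemNum.kap_le {p : Par2} (h : SemNum p) :
    kap p.toPar ^ 2 ^ p.r * (p.q : ℝ) ^ 6 ≤ 1 := by
  have h1 : kap p.toPar ^ 2 ^ p.rk ≤ 1 / 2 := by
    have h2 := one_sub_pow_le (m := 2 ^ p.rk) Nat.one_le_two_pow
    refine le_trans (le_of_eq ?_) h2
    unfold kap
    push_cast
    rw [one_div, one_div, inv_pow]
  have h2 : (2 : ℕ) ^ p.r = 2 ^ p.rk * 2 ^ (p.r - p.rk) := by
    rw [← pow_add]
    congr 1
    have := h.rk_le
    omega
  have h3 : kap p.toPar ^ 2 ^ p.r ≤ (1 / 2) ^ 2 ^ (p.r - p.rk) := by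
    rw [h2, pow_mul]
    exact pow_le_pow_left₀ (pow_nonneg (kap_nonneg _) _) h1 _
  have h4 : (p.q : ℝ) ^ 6 ≤ 2 ^ 2 ^ (p.r - p.rk) := by exact_mod_cast h.q6
  calc kap p.toPar ^ 2 ^ p.r * (p.q : ℝ) ^ 6
      ≤ (1 / 2) ^ 2 ^ (p.r - p.rk) * 2 ^ 2 ^ (p.r - p.rk) := by
        gcongr
    _ = 1 := by
        rw [← mul_pow]
        norm_num

variable {p : Par2}

theorem SemNum.c_le (h : SemNum p) {d : SD} (hd : Val p.toPar d) {v : ℕ} (hv : v < p.n) :
    d.c v ≤ p.cmax := by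
  have h1 : p.q ^ (d.c v - p.b) ≤ 2 * p.n :=
    le_trans (single_le_sum (f := fun v => p.q ^ (d.c v - p.b)) (fun _ _ => Nat.zero_le _)
      (mem_range.2 hv)) hd.mass
  by_contra hc
  have h2 : p.q ^ (p.cmax + 1 - p.b) ≤ p.q ^ (d.c v - p.b) :=
    Nat.pow_le_pow_right h.prime.pos (by omega)
  have := h.hcm
  omega

theorem SemNum.min_c (h : SemNum p) {d : SD} (hd : Val p.toPar d) {v : ℕ} (hv : v < p.n) :
    min (d.c v) p.cmax = d.c v := min_eq_left (h.c_le hd hv)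

theorem hop_fst {d : SD} (hd : Val p.toPar d) {v z : ℕ} (hv : v < p.n)
    (hz : z < p.q ^ d.c v) : (hopF p.toPar d v z).1 < p.n := by
  rw [H899.hopF_fst]
  refine H899.fx_lt ?_
  rw [H899.rowS_FD (hd.row v hv) (hd.cb v hv)]
  exact hz

theorem SemNum.hh_eq (h : SemNum p) [NeZero p.q] {d : SD} (hd : Val p.toPar d) (v : Fin p.n) :
    (sysc p d).hh (1 / (p.q : ℝ) ^ p.b) v = hw p.toPar d v := by
  have : Fact (lay p d).q.Prime := ⟨h.prime⟩
  have hq0 : (0 : ℝ) < p.q := by exact_mod_cast h.prime.pos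
  refine (H205.Lay.hh_sys (lay_c_le p d) (hopT p d) _ v).trans ?_
  change 1 / (p.q : ℝ) ^ p.b * (p.q : ℝ) ^ min (d.c v) p.cmax = (p.q : ℝ) ^ (d.c v - p.b)
  rw [h.min_c hd v.2]
  have h1 : (p.q : ℝ) ^ d.c v = (p.q : ℝ) ^ (d.c v - p.b) * (p.q : ℝ) ^ p.b := by
    rw [← pow_add]
    congr 1
    have := hd.cb v v.2
    omega
  rw [h1]
  field_simp

theorem SemNum.num (h : SemNum p) (d : SD) :
    NumOK (lay p d).q p.r (lay p d).t (lay p d).cm (lay p d).nd (lay p d).n where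
  r1 := h.r1
  q16 := h.q16
  mix := by
    change (p.cmax + p.nd + 10 * 31 * p.r) ^ 31 * p.q ^ 23 ≤ p.q ^ 31
    calc (p.cmax + p.nd + 10 * 31 * p.r) ^ 31 * p.q ^ 23 ≤ p.q ^ 8 * p.q ^ 23 :=
          Nat.mul_le_mul_right _ h.mix
      _ = p.q ^ 31 := (pow_add _ _ _).symm
  hash := h.hash
  n_le := h.n_le

theorem SemNum.good (h : SemNum p) [NeZero p.q] {d : SD} (hd : Val p.toPar d) :
    (sysc p d).Good (1 / (p.q : ℝ) ^ p.b) p.q p.r (Nm p.toPar d) := by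
  have : Fact (lay p d).q.Prime := ⟨h.prime⟩
  have hq0 : (0 : ℝ) < p.q := by exact_mod_cast h.prime.pos
  refine good_sys (Y := lay p d) (T0 := hopT p d) (F := H899.FD p.toPar d) (lay_c_le p d)
    (h.num d) ?_ ?_ ?_ (μ := 1 / (p.q : ℝ) ^ p.b) (by positivity) ?_
  · intro v hv
    refine (H899.rowS_FD (hd.row v hv) (hd.cb v hv)).trans ?_
    change p.q ^ d.c v = p.q ^ min (d.c v) p.cmax
    rw [h.min_c hd hv]
  · rintro ⟨v, z⟩
    have hz : (z : ℕ) < p.q ^ d.c v := by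
      have h1 : (z : ℕ) < p.q ^ min (d.c v) p.cmax := z.2
      rwa [h.min_c hd v.2] at h1
    unfold hopT
    rw [dif_pos (hop_fst hd v.2 hz)]
    exact H899.hopF_fst _ _ _ _
  · rintro ⟨v, z⟩
    have hz : (z : ℕ) < p.q ^ d.c v := by
      have h1 : (z : ℕ) < p.q ^ min (d.c v) p.cmax := z.2
      rwa [h.min_c hd v.2] at h1
    unfold hopT
    rw [dif_pos (hop_fst hd v.2 hz)]
    change (hopF p.toPar d v z).2 % p.q ^ min (d.c (hopF p.toPar d v z).1) p.cmax = _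
    rw [H899.hopF_fst, H899.hopF_snd]
    rfl
  · intro v x
    change (d.A v x : ℝ) / (p.q : ℝ) ^ p.b =
      ((p.q ^ (d.c v - p.b) * d.A v x : ℕ) : ℝ) / (p.q : ℝ) ^ min (d.c v) p.cmax
    rw [h.min_c hd v.2]
    have h1 : (p.q : ℝ) ^ d.c v = (p.q : ℝ) ^ (d.c v - p.b) * (p.q : ℝ) ^ p.b := by
      rw [← pow_add]
      congr 1
      have := hd.cb v v.2
      omega
    rw [h1]
    push_cast
    field_simp

theorem SemNum.matchS (h : SemNum p) [NeZero p.q] {d : SD} (hd : Val p.toPar d) :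
    Match p.toPar (theSem p) d (sysc p d) (1 / (p.q : ℝ) ^ p.b) where
  good := h.good hd
  hw_eq := h.hh_eq hd
  P_eq := by
    intro Z a v x
    unfold theSem
    simp only
    rw [dif_pos ⟨v.2, x.2⟩, h.lam]
  loss_eq := by
    intro Z x
    unfold theSem
    simp only
    rw [dif_pos x.2, h.lam]

/-- The kernels and the loss of the concrete tokens are as required. -/
theorem semOK (h : SemNum p) [NeZero p.q] : SemOK p.toPar (theSem p) := by
  have hq0 : (0 : ℝ) < p.q := by exact_mod_cast h.prime.pos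
  have hμ : (0 : ℝ) ≤ 1 / (p.q : ℝ) ^ p.b := by positivity
  constructor
  · intro d Z a v x
    unfold theSem
    simp only
    split_ifs with hv
    · exact Sys.P_nonneg hμ _ _
    · exact le_refl _
  · intro d Z hd a _ v
    exact (h.matchS hd).P_row Z a v
  · intro d Z x
    unfold theSem
    simp only
    split_ifs with hx
    · have : Fact (lay p d).q.Prime := ⟨h.prime⟩
      refine div_nonneg (sum_nonneg fun a _ => hX_nonneg hμ _ _ _ _) ?_
      exact (H205.Lay.hh_pos (lay_c_le p d) (hopT p d) (by positivity) _).le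
    · exact le_refl _
  · intro d Z hd hb
    exact (h.matchS hd).lossmass hb
  · intro d Z Z' hd hb hZ hl
    exact (h.matchS hd).pre h.kap_le hb hZ hl

end Vale.Agent.P313.H136
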