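import Vale.Agent.P313.H136.Lev
import Vale.Agent.P313.H644.Split

/-!
The backward trees of the time-indexed walk are the backward trees of the recursive walk.
-/

namespace Vale.Agent.P313.H136

set_option linter.unusedSectionVars false

open Finset Classical Vale.Agent.P313.H644

section shape

variable {α : Type*} {M : Mv α}

/-- Sums over the leaves only depend on the values at the leaves which satisfy a hereditary
condition. -/
theorem sm_congr_her {Z : ℕ → α → Prop} [∀ t y, Decidable (Z t y)] {g g' : α → ℕ} {Q : α → Prop}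
    {T : ℕ} (hQ : ∀ t < T, ∀ y, Q y → ∀ j < M.nc t y, Q (M.dn t y j))
    (hg : ∀ y, Q y → g y = g' y) : ∀ t ≤ T, ∀ y, Q y → M.sm Z g t y = M.sm Z g' t y := by
  intro t
  induction t with
  | zero => intro _ y hy; exact hg y hy
  | succ t ih =>
    intro ht y hy
    simp only [Mv.sm]
    split_ifs
    · rfl
    · exact sum_congr rfl fun j hj => ih (by omega) _ (hQ t (by omega) y hy j (mem_range.1 hj))

end shape

variable {V X Ec Sd : Type} {S : Sys V X Ec Sd} [AddCommGroup Ec]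
  [Fintype X] [Fintype Ec] [Fintype Sd]

/-- The fibre of the walk of `2 ^ (a + 1)` hops. -/
theorem sum_fib_succ (a : ℕ) (G : Tok X (Ec × Sd) (a + 1) → ℕ) (y0 : Tok X (Ec × Sd) a)
    (l : Ec × Sd) :
    ∑ p ∈ univ.filter (fun p => S.U (a + 1) p = (y0, l)), G p =
      ∑ w ∈ univ.filter (fun w => S.U a w = y0),
        ∑ u ∈ univ.filter (fun u => S.U a u = (S.Ri a (w, l)).1), G (u, (S.Ri a (w, l)).2) := by
  rw [sum_sigma']
  refine sum_bij' (i := fun p _ => (⟨(S.R a (S.U a p.1, p.2)).1, p.1⟩ :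
      (_ : Tok X (Ec × Sd) a) × Tok X (Ec × Sd) a))
    (j := fun s _ => ((s.2, (S.Ri a (s.1, l)).2) : Tok X (Ec × Sd) (a + 1))) ?_ ?_ ?_ ?_ ?_
  · rintro ⟨u, l'⟩ hp
    have h2 : (S.U a (S.R a (S.U a u, l')).1, (S.R a (S.U a u, l')).2) = (y0, l) :=
      (mem_filter.1 hp).2
    rw [Prod.mk.injEq] at h2
    refine mem_sigma.2 ⟨mem_filter.2 ⟨mem_univ _, h2.1⟩, mem_filter.2 ⟨mem_univ _, ?_⟩⟩
    change S.U a u = (S.Ri a ((S.R a (S.U a u, l')).1, l)).1
    rw [← h2.2]
    change _ = (S.Ri a (S.R a (S.U a u, l'))).1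
    rw [S.Ri_R]
  · rintro ⟨w, u⟩ hs
    obtain ⟨h1, h2⟩ := mem_sigma.1 hs
    have h1' : S.U a w = y0 := (mem_filter.1 h1).2
    have h2' : S.U a u = (S.Ri a (w, l)).1 := (mem_filter.1 h2).2
    refine mem_filter.2 ⟨mem_univ _, ?_⟩
    change (S.U a (S.R a (S.U a u, (S.Ri a (w, l)).2)).1,
      (S.R a (S.U a u, (S.Ri a (w, l)).2)).2) = (y0, l)
    rw [h2']
    change (S.U a (S.R a (S.Ri a (w, l))).1, (S.R a (S.Ri a (w, l))).2) = (y0, l)
    rw [S.R_Ri, h1']
  · rintro ⟨u, l'⟩ hp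
    have h2 : (S.U a (S.R a (S.U a u, l')).1, (S.R a (S.U a u, l')).2) = (y0, l) :=
      (mem_filter.1 hp).2
    rw [Prod.mk.injEq] at h2
    change (u, (S.Ri a ((S.R a (S.U a u, l')).1, l)).2) = (u, l')
    rw [← h2.2]
    change (u, (S.Ri a (S.R a (S.U a u, l'))).2) = (u, l')
    rw [S.Ri_R]
  · rintro ⟨w, u⟩ hs
    obtain ⟨h1, h2⟩ := mem_sigma.1 hs
    have h2' : S.U a u = (S.Ri a (w, l)).1 := (mem_filter.1 h2).2
    have h3 : (S.R a (S.U a u, (S.Ri a (w, l)).2)).1 = w := by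
      rw [h2']
      change (S.R a (S.Ri a (w, l))).1 = w
      rw [S.R_Ri]
    change (⟨(S.R a (S.U a u, (S.Ri a (w, l)).2)).1, u⟩ :
      (_ : Tok X (Ec × Sd) a) × Tok X (Ec × Sd) a) = ⟨w, u⟩
    rw [h3]
  · rintro ⟨u, l'⟩ hp
    have h2 : (S.U a (S.R a (S.U a u, l')).1, (S.R a (S.U a u, l')).2) = (y0, l) :=
      (mem_filter.1 hp).2
    rw [Prod.mk.injEq] at h2
    change G (u, l') = G (u, (S.Ri a ((S.R a (S.U a u, l')).1, l)).2)
    rw [← h2.2]
    change G (u, l') = G (u, (S.Ri a (S.R a (S.U a u, l'))).2)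
    rw [S.Ri_R]

theorem Sys.ok_empty (S : Sys V X Ec Sd) : ∀ (a : ℕ) (u : Tok X (Ec × Sd) a), S.ok ∅ a u
  | 0, _ => id
  | a + 1, p => ⟨Sys.ok_empty S a p.1, Sys.ok_empty S a _⟩

/-- The time-indexed walk `M` on the valid contents `P` describes the walk of `S` on tokens. -/
structure Br (S : Sys V X Ec Sd) {α : Type*} (M : Mv α) (P : α → Prop)
    (D : ∀ a, α → Tok X (Ec × Sd) a) (lab : ℕ → α → Ec × Sd) (unmix : ℕ → α → α) (v : ℕ → ℕ)
    (r : ℕ) : Prop where
  v_lt : ∀ a t, 0 < t → t < 2 ^ a → v t < a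
  v_pow : ∀ a, v (2 ^ a) = a
  v_add : ∀ a t, 0 < t → t < 2 ^ a → v (2 ^ a + t) = v t
  D_succ : ∀ a y, D (a + 1) y = (D a y, lab a y)
  nc : ∀ t y, M.nc t y = M.nc 0 y
  dn : ∀ t y j, 0 < t → M.dn t y j = unmix (v t) (M.dn 0 y j)
  P_dn : ∀ y, P y → ∀ j < M.nc 0 y, P (M.dn 0 y j)
  lab_dn : ∀ y, P y → ∀ j < M.nc 0 y, ∀ b, lab b (M.dn 0 y j) = lab b y
  sum_dn : ∀ y, P y → ∀ G : X → ℕ, ∑ j ∈ range (M.nc 0 y), G (D 0 (M.dn 0 y j)) =
    ∑ u ∈ univ.filter (fun u => S.T0 u = D 0 y), G u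
  P_un : ∀ a < r, ∀ y, P y → P (unmix a y)
  lab_un : ∀ a < r, ∀ y, P y → ∀ b, a < b → lab b (unmix a y) = lab b y
  D_un : ∀ a < r, ∀ y, P y → D (a + 1) (unmix a y) = S.Ri a (D (a + 1) y)

variable {α : Type*} {M : Mv α} {P : α → Prop} {D : ∀ a, α → Tok X (Ec × Sd) a}
  {lab : ℕ → α → Ec × Sd} {unmix : ℕ → α → α} {v : ℕ → ℕ} {r : ℕ}

namespace Br

variable (h : Br S M P D lab unmix v r)
include h

/-- Valid contents with the labels of `y0` from block `a` on are hereditary for `2 ^ a` hops. -/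
theorem her {a : ℕ} (ha : a ≤ r) (y0 : α) : ∀ t < 2 ^ a, ∀ y, (P y ∧ ∀ b, a ≤ b → lab b y = lab b y0) →
    ∀ j < M.nc t y, P (M.dn t y j) ∧ ∀ b, a ≤ b → lab b (M.dn t y j) = lab b y0 := by
  intro t ht y hy j hj
  rw [h.nc] at hj
  have h1 := h.P_dn y hy.1 j hj
  have h2 := h.lab_dn y hy.1 j hj
  rcases Nat.eq_zero_or_pos t with rfl | h0
  · exact ⟨h1, fun b hb => (h2 b).trans (hy.2 b hb)⟩
  · rw [h.dn t y j h0]
    have h3 := h.v_lt a t h0 ht
    refine ⟨h.P_un _ (by omega) _ h1, fun b hb => ?_⟩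
    rw [h.lab_un _ (by omega) _ h1 b (by omega), h2]
    exact hy.2 b hb

/-- The shifted tree is the tree with unmixed leaves. -/
theorem shift_sm {Z : ℕ → α → Prop} [∀ t y, Decidable (Z t y)] {a : ℕ}
    (hZ : ∀ t y, Z (2 ^ a + t) y ↔ Z t y) (g : α → ℕ) :
    ∀ k, 1 ≤ k → k ≤ 2 ^ a → ∀ y, (M.shift (2 ^ a)).sm (fun t => Z (2 ^ a + t)) g k y =
      M.sm Z (fun u => g (unmix a u)) k y := by
  intro k
  induction k with
  | zero => intro h1; omega
  | succ k ih =>
    intro _ hk y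
    have e1 : (M.shift (2 ^ a)).nc k y = M.nc k y := by
      change M.nc (2 ^ a + k) y = _
      rw [h.nc, h.nc k]
    simp only [Mv.sm]
    rw [e1]
    have e2 : (Z (2 ^ a + (k + 1)) y ↔ Z (k + 1) y) := hZ _ _
    by_cases h3 : Z (k + 1) y
    · rw [if_pos h3, if_pos (e2.2 h3)]
    · rw [if_neg h3, if_neg (fun h' => h3 (e2.1 h'))]
      refine sum_congr rfl fun j _ => ?_
      rcases Nat.eq_zero_or_pos k with rfl | h0
      · change g (M.dn (2 ^ a + 0) y j) = g (unmix a (M.dn 0 y j))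
        rw [Nat.add_zero, h.dn _ _ _ (Nat.two_pow_pos a), h.v_pow]
      · rw [ih h0 (by omega)]
        congr 1
        change M.dn (2 ^ a + k) y j = M.dn k y j
        rw [h.dn _ _ _ (by omega), h.dn k _ _ h0, h.v_add a k h0 (by omega)]

theorem shift_W {a : ℕ} : ∀ k, k ≤ 2 ^ a → ∀ y, (M.shift (2 ^ a)).W k y = M.W k y ∧
    (1 ≤ k → (M.shift (2 ^ a)).wn k y = M.wn k y) := by
  intro k
  induction k with
  | zero =>
    intro _ y
    exact ⟨rfl, fun h => absurd h (by omega)⟩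
  | succ k ih =>
    intro hk y
    have e1 : (M.shift (2 ^ a)).nc k y = M.nc k y := by
      change M.nc (2 ^ a + k) y = _
      rw [h.nc, h.nc k]
    have key : (M.shift (2 ^ a)).W (k + 1) y = M.W (k + 1) y := by
      simp only [Mv.W]
      rw [e1]
      refine sum_congr rfl fun j _ => ?_
      rcases Nat.eq_zero_or_pos k with rfl | h0
      · rfl
      · rw [(ih (by omega) _).2 h0]
        congr 1
        change M.dn (2 ^ a + k) y j = M.dn k y j
        rw [h.dn _ _ _ (by omega), h.dn k _ _ h0, h.v_add a k h0 (by omega)]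
    refine ⟨key, fun _ => ?_⟩
    rw [Mv.wn_eq (M.shift (2 ^ a)), Mv.wn_eq M, key]

/-- THE BRIDGE: sums over the leaves of the backward tree. -/
theorem sm_eq {Zs : Set V} {Z : ℕ → α → Prop} [∀ t y, Decidable (Z t y)]
    (hZ : ∀ t y, Z t y ↔ Z 0 y) (hZs : ∀ y, P y → (Z 0 y ↔ S.st (D 0 y) ∈ Zs)) :
    ∀ a ≤ r, ∀ (G : Tok X (Ec × Sd) a → ℕ) (y : α), P y →
      M.sm Z (fun u => G (D a u)) (2 ^ a) y =
        ∑ u ∈ univ.filter (fun u => S.U a u = D a y), if S.ok Zs a u then G u else 0 := by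
  intro a
  induction a with
  | zero =>
    intro _ G y hy
    change (if Z 1 y then 0 else ∑ j ∈ range (M.nc 0 y), G (D 0 (M.dn 0 y j))) = _
    rw [h.sum_dn y hy G]
    by_cases h1 : S.st (D 0 y) ∈ Zs
    · rw [if_pos ((hZ 1 y).2 ((hZs y hy).2 h1))]
      symm
      refine sum_eq_zero fun u hu => ?_
      have h2 : S.T0 u = D 0 y := (mem_filter.1 hu).2
      rw [if_neg]
      intro h3
      have h4 : S.st (S.T0 u) ∉ Zs := h3
      rw [h2] at h4
      exact h4 h1
    · rw [if_neg (fun h' => h1 ((hZs y hy).1 ((hZ 1 y).1 h')))]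
      refine sum_congr ?_ fun u hu => ?_
      · rfl
      · have h2 : S.T0 u = D 0 y := (mem_filter.1 hu).2
        rw [if_pos]
        change S.st (S.T0 u) ∉ Zs
        rw [h2]
        exact h1
  | succ a ih =>
    intro ha G y hy
    have e : 2 ^ (a + 1) = 2 ^ a + 2 ^ a := by ring
    rw [e, Mv.sm_add]
    have hpos : 0 < 2 ^ a := Nat.two_pow_pos a
    -- the lower tree
    have h1 : ∀ u, P u → M.sm Z (fun w => G (D (a + 1) w)) (2 ^ a) u =
        ∑ w ∈ univ.filter (fun w => S.U a w = D a u), if S.ok Zs a w then G (w, lab a u) else 0 := by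
      intro u hu
      rw [← ih (by omega) (fun w => G (w, lab a u)) u hu]
      refine sm_congr_her (Q := fun y => P y ∧ ∀ b, a ≤ b → lab b y = lab b u)
        (h.her (by omega) u) ?_ (2 ^ a) le_rfl u ⟨hu, fun _ _ => rfl⟩
      intro w hw
      rw [h.D_succ, hw.2 a le_rfl]
    rw [h.shift_sm (fun t y => (hZ _ y).trans (hZ t y).symm) _ (2 ^ a) hpos le_rfl y]
    -- the upper tree
    have h2 : M.sm Z (fun u => M.sm Z (fun w => G (D (a + 1) w)) (2 ^ a) (unmix a u)) (2 ^ a) y =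
        M.sm Z (fun u => (fun w : Tok X (Ec × Sd) a =>
          ∑ w' ∈ univ.filter (fun w' => S.U a w' = (S.Ri a (w, lab a y)).1),
            if S.ok Zs a w' then G (w', (S.Ri a (w, lab a y)).2) else 0) (D a u)) (2 ^ a) y := by
      refine sm_congr_her (Q := fun y' => P y' ∧ ∀ b, a ≤ b → lab b y' = lab b y)
        (h.her (by omega) y) ?_ (2 ^ a) le_rfl y ⟨hy, fun _ _ => rfl⟩
      intro u hu
      rw [h1 _ (h.P_un a (by omega) u hu.1)]
      have h3 := h.D_un a (by omega) u hu.1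
      rw [h.D_succ, h.D_succ, hu.2 a le_rfl] at h3
      have h4 : D a (unmix a u) = (S.Ri a (D a u, lab a y)).1 := congrArg Prod.fst h3
      have h5 : lab a (unmix a u) = (S.Ri a (D a u, lab a y)).2 := congrArg Prod.snd h3
      rw [h4, h5]
    rw [h2]
    refine (ih (by omega) (fun w => ∑ w' ∈ univ.filter (fun w' => S.U a w' = (S.Ri a (w, lab a y)).1),
            if S.ok Zs a w' then G (w', (S.Ri a (w, lab a y)).2) else 0) y hy).trans ?_
    rw [h.D_succ, sum_fib_succ]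
    refine sum_congr rfl fun w hw => ?_
    have hw' : S.U a w = D a y := (mem_filter.1 hw).2
    have h6 : ∀ u, S.U a u = (S.Ri a (w, lab a y)).1 →
        (S.ok Zs (a + 1) (u, (S.Ri a (w, lab a y)).2) ↔ S.ok Zs a u ∧ S.ok Zs a w) := by
      intro u hu
      change (S.ok Zs a u ∧ S.ok Zs a (S.R a (S.U a u, (S.Ri a (w, lab a y)).2)).1) ↔ _
      rw [hu]
      change (S.ok Zs a u ∧ S.ok Zs a (S.R a (S.Ri a (w, lab a y))).1) ↔ _
      rw [S.R_Ri]
    by_cases h7 : S.ok Zs a w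
    · rw [if_pos h7]
      refine sum_congr rfl fun u hu => ?_
      have hu' := (mem_filter.1 hu).2
      by_cases h8 : S.ok Zs a u
      · rw [if_pos h8, if_pos ((h6 u hu').2 ⟨h8, h7⟩)]
      · rw [if_neg h8, if_neg (fun h' => h8 ((h6 u hu').1 h').1)]
    · rw [if_neg h7]
      symm
      refine sum_eq_zero fun u hu => ?_
      have hu' := (mem_filter.1 hu).2
      rw [if_neg (fun h' => h7 ((h6 u hu').1 h').2)]

/-- The upper half of the tree: the leaves are the tokens in the middle, before mixing. -/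
theorem shift_sm_eq {Zs : Set V} {Z : ℕ → α → Prop} [∀ t y, Decidable (Z t y)]
    (hZ : ∀ t y, Z t y ↔ Z 0 y) (hZs : ∀ y, P y → (Z 0 y ↔ S.st (D 0 y) ∈ Zs)) {a : ℕ} (ha : a < r)
    {g : α → ℕ} (G : Tok X (Ec × Sd) (a + 1) → ℕ) (hg : ∀ u, P u → g u = G (D (a + 1) u))
    {y : α} (hy : P y) :
    (M.shift (2 ^ a)).sm (fun t => Z (2 ^ a + t)) g (2 ^ a) y =
      ∑ w ∈ univ.filter (fun w => S.U a w = D a y),
        if S.ok Zs a w then G (S.Ri a (w, lab a y)) else 0 := by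
  have hpos : 0 < 2 ^ a := Nat.two_pow_pos a
  rw [h.shift_sm (fun t y => (hZ _ y).trans (hZ t y).symm) _ (2 ^ a) hpos le_rfl y,
    ← h.sm_eq hZ hZs a ha.le (fun w => G (S.Ri a (w, lab a y))) y hy]
  refine sm_congr_her (Q := fun y' => P y' ∧ ∀ b, a ≤ b → lab b y' = lab b y)
    (h.her ha.le y) ?_ (2 ^ a) le_rfl y ⟨hy, fun _ _ => rfl⟩
  intro u hu
  rw [hg _ (h.P_un a ha u hu.1), h.D_un a ha u hu.1, h.D_succ, hu.2 a le_rfl]

theorem shift_sl_eq {a : ℕ} (ha : a < r)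
    {g : α → ℕ} (G : Tok X (Ec × Sd) (a + 1) → ℕ) (hg : ∀ u, P u → g u = G (D (a + 1) u))
    {y : α} (hy : P y) :
    (M.shift (2 ^ a)).sl g (2 ^ a) y =
      ∑ w ∈ univ.filter (fun w => S.U a w = D a y), G (S.Ri a (w, lab a y)) := by
  rw [Mv.sl_eq_sm]
  have h1 := h.shift_sm_eq (Zs := ∅) (Z := fun _ _ => False) (fun _ _ => Iff.rfl)
    (fun y _ => by simp) ha G hg hy
  refine h1.trans (sum_congr rfl fun w _ => if_pos ?_)
  exact S.ok_empty a w

/-- The size of the tree. -/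
theorem W_eq : ∀ a ≤ r, ∀ y, P y → M.W (2 ^ a) y = S.W a (D a y) := by
  intro a
  induction a with
  | zero =>
    intro _ y hy
    change ∑ j ∈ range (M.nc 0 y), 1 = _
    exact (h.sum_dn y hy fun _ => 1).trans (card_eq_sum_ones _).symm
  | succ a ih =>
    intro ha y hy
    have e : 2 ^ (a + 1) = 2 ^ a + 2 ^ a := by ring
    rw [e, Mv.W_add, (h.shift_W (2 ^ a) le_rfl y).1, ih (by omega) y hy, h.D_succ,
      h.shift_sl_eq (by omega) (fun w => S.W a w.1)
        (fun u hu => by rw [ih (by omega) u hu, h.D_succ]) hy]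
    rfl

/-- The size of the upper half of the tree. -/
theorem shift_W_eq {a : ℕ} (ha : a ≤ r) {y : α} (hy : P y) :
    (M.shift (2 ^ a)).W (2 ^ a) y = S.W a (D a y) := by
  rw [(h.shift_W (2 ^ a) le_rfl y).1, h.W_eq a ha y hy]

/-- The size of the tree of the next level. -/
theorem W_succ_eq {a : ℕ} (ha : a < r) {g : α → ℕ} (hg : ∀ u, P u → g u = S.W a (D a u))
    {y : α} (hy : P y) :
    (M.shift (2 ^ a)).W (2 ^ a) y + (M.shift (2 ^ a)).sl g (2 ^ a) y =
      S.W (a + 1) (D (a + 1) y) := by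
  rw [h.shift_W_eq ha.le hy, h.shift_sl_eq ha (fun w => S.W a w.1)
    (fun u hu => by rw [hg u hu, h.D_succ]) hy, h.D_succ]
  rfl

/-- The number of leaves which avoid `Z` and satisfy `q`. -/
theorem cnt_eq {Zs : Set V} {Z : ℕ → α → Prop} [∀ t y, Decidable (Z t y)]
    (hZ : ∀ t y, Z t y ↔ Z 0 y) (hZs : ∀ y, P y → (Z 0 y ↔ S.st (D 0 y) ∈ Zs)) {a : ℕ} (ha : a ≤ r)
    (q : Tok X (Ec × Sd) a → Prop) {g : α → ℕ}
    (hg : ∀ u, P u → g u = if q (D a u) then 1 else 0) {y : α} (hy : P y) :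
    M.sm Z g (2 ^ a) y =
      (univ.filter fun u => S.U a u = D a y ∧ q u ∧ S.ok Zs a u).card := by
  have h1 : M.sm Z g (2 ^ a) y = M.sm Z (fun u => (fun w => if q w then 1 else 0) (D a u))
      (2 ^ a) y :=
    sm_congr_her (Q := fun y' => P y' ∧ ∀ b, a ≤ b → lab b y' = lab b y)
      (h.her ha y) (fun u hu => hg u hu.1) (2 ^ a) le_rfl y ⟨hy, fun _ _ => rfl⟩
  rw [h1]
  refine (h.sm_eq hZ hZs a ha (fun w => if q w then 1 else 0) y hy).trans ?_
  rw [card_filter, sum_filter]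
  refine sum_congr rfl fun u _ => ?_
  by_cases h2 : S.U a u = D a y <;> by_cases h3 : S.ok Zs a u <;> by_cases h4 : q u <;>
    simp [h2, h3, h4]

/-- The number of two-phase alive leaves of the tree of the next level. -/
theorem loss_eq {Zs : Set V} {Z : ℕ → α → Prop} [∀ t y, Decidable (Z t y)]
    (hZ : ∀ t y, Z t y ↔ Z 0 y) (hZs : ∀ y, P y → (Z 0 y ↔ S.st (D 0 y) ∈ Zs)) {a : ℕ} (ha : a < r)
    {Lam : ℕ} {g : α → ℕ}
    (hg : ∀ u, P u → g u = if S.W a (D a u) < Lam then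
      (univ.filter fun u' => S.U a u' = D a u ∧ S.ok Zs a u').card else 0)
    {y : α} (hy : P y) :
    (if S.W a (D a y) < Lam then
      (M.shift (2 ^ a)).sm (fun t => Z (2 ^ a + t)) g (2 ^ a) y else 0) =
      (univ.filter fun u : Tok X (Ec × Sd) (a + 1) => S.U (a + 1) u = D (a + 1) y ∧
        S.al Lam Zs a u.1 ∧ S.al Lam Zs a (S.R a (S.U a u.1, u.2)).1).card := by
  have h1 := h.shift_sm_eq (g := g) hZ hZs ha (fun p => if S.W a p.1 < Lam then
      (univ.filter fun u' => S.U a u' = p.1 ∧ S.ok Zs a u').card else 0)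
    (fun u hu => by rw [hg u hu, h.D_succ]) hy
  rw [h1]
  have h2 : (univ.filter fun u : Tok X (Ec × Sd) (a + 1) => S.U (a + 1) u = D (a + 1) y ∧
        S.al Lam Zs a u.1 ∧ S.al Lam Zs a (S.R a (S.U a u.1, u.2)).1).card =
      ∑ p ∈ univ.filter (fun p => S.U (a + 1) p = (D a y, lab a y)),
        if S.al Lam Zs a p.1 ∧ S.al Lam Zs a (S.R a (S.U a p.1, p.2)).1 then 1 else 0 := by
    rw [card_filter, sum_filter, h.D_succ]
    refine sum_congr rfl fun u _ => ?_
    exact ite_and _ _ _ _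
  rw [h2, sum_fib_succ]
  by_cases h0 : S.W a (D a y) < Lam
  · rw [if_pos h0]
    refine sum_congr rfl fun w hw => ?_
    have hw' : S.U a w = D a y := (mem_filter.1 hw).2
    have h6 : ∀ u, S.U a u = (S.Ri a (w, lab a y)).1 →
        (S.R a (S.U a u, (S.Ri a (w, lab a y)).2)).1 = w := by
      intro u hu
      rw [hu]
      change (S.R a (S.Ri a (w, lab a y))).1 = w
      rw [S.R_Ri]
    by_cases h7 : S.ok Zs a w
    · rw [if_pos h7]
      by_cases h8 : S.W a (S.Ri a (w, lab a y)).1 < Lam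
      · rw [if_pos h8, card_filter, sum_filter]
        refine sum_congr rfl fun u _ => ?_
        by_cases h9 : S.U a u = (S.Ri a (w, lab a y)).1
        · have h10 := h6 u h9
          simp only [h9, true_and, if_true]
          have h11 : (S.al Lam Zs a u ∧ S.al Lam Zs a
              (S.R a ((S.Ri a (w, lab a y)).1, (S.Ri a (w, lab a y)).2)).1) ↔ S.ok Zs a u := by
            rw [← h9, h10]
            unfold Sys.al
            rw [h9, hw']
            exact ⟨fun h' => h'.1.1, fun h' => ⟨⟨h', h8⟩, h7, h0⟩⟩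
          by_cases h12 : S.ok Zs a u
          · rw [if_pos h12, if_pos (h11.2 h12)]
          · rw [if_neg h12, if_neg (fun h' => h12 (h11.1 h'))]
        · simp [h9]
      · rw [if_neg h8]
        symm
        refine sum_eq_zero fun u hu => ?_
        have hu' := (mem_filter.1 hu).2
        rw [if_neg]
        rintro ⟨⟨_, h9⟩, _⟩
        have h9' : S.W a (S.U a u) < Lam := h9
        rw [hu'] at h9'
        exact h8 h9'
    · rw [if_neg h7]
      symm
      refine sum_eq_zero fun u hu => ?_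
      have hu' := (mem_filter.1 hu).2
      rw [if_neg]
      rintro ⟨_, h9, _⟩
      change S.ok Zs a (S.R a (S.U a u, (S.Ri a (w, lab a y)).2)).1 at h9
      rw [h6 u hu'] at h9
      exact h7 h9
  · rw [if_neg h0]
    symm
    refine sum_eq_zero fun w hw => sum_eq_zero fun u hu => ?_
    have hw' : S.U a w = D a y := (mem_filter.1 hw).2
    have hu' := (mem_filter.1 hu).2
    rw [if_neg]
    rintro ⟨_, _, h9⟩
    have h6 : (S.R a (S.U a u, (S.Ri a (w, lab a y)).2)).1 = w := by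
      rw [hu']
      change (S.R a (S.Ri a (w, lab a y))).1 = w
      rw [S.R_Ri]
    change S.W a (S.U a (S.R a (S.U a u, (S.Ri a (w, lab a y)).2)).1) < Lam at h9
    rw [h6, hw'] at h9
    exact h0 h9

end Br

end Vale.Agent.P313.H136
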