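import Vale.Agent.P313.BP.Inst

/-!
The number of leaves of a backward tree is at most the number of its proper descendants.
-/

namespace Vale.Agent.P313.H136

open Finset Classical Vale.Agent.P313.BP

variable (p : Par2) [hq0 : NeZero p.q]

theorem C_le_W (d : SD) (Z : ℕ → Prop) (a v x z : ℕ) (t : Tp) :
    (theTSem p).C d Z a v x z t ≤ (theTSem p).W d a x z t := by
  by_cases h : x < p.n ∧ z < (lay p d).q ^ (lay p d).c x
  · show (if h : x < p.n ∧ z < (lay p d).q ^ (lay p d).c x then _ else 0) ≤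
      (if h : x < p.n ∧ z < (lay p d).q ^ (lay p d).c x then _ else 0)
    rw [dif_pos h, dif_pos h]
    refine le_trans (card_le_card ?_)
      ((sysc p d).card_fib a (dec p d a ⟨x, h.1⟩ ⟨z, h.2⟩ t))
    intro u hu
    exact mem_filter.2 ⟨mem_univ _, (mem_filter.1 hu).2.1⟩
  · show (if h : x < p.n ∧ z < (lay p d).q ^ (lay p d).c x then _ else 0) ≤ _
    rw [dif_neg h]
    exact Nat.zero_le _

theorem C_le_Lam (d : SD) (Z : ℕ → Prop) (a v x z : ℕ) (t : Tp)
    (h : (theTSem p).W d a x z t < p.Lam) : (theTSem p).C d Z a v x z t ≤ p.Lam :=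
  (C_le_W p d Z a v x z t).trans h.le

theorem cnt_le (d : SD) (Z : ℕ → Prop) (a v x z : ℕ) (t : Tp) :
    (theTSem p).cnt p.Lam d Z a v x z t ≤ p.Lam := by
  unfold TSem.cnt
  split_ifs with h
  · exact C_le_Lam p d Z a v x z t h
  · exact Nat.zero_le _

end Vale.Agent.P313.H136
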